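import Vale.Agent.KK.RG.Defs

/-!
# Breadth-first data exist (job P064-RG4)
-/

namespace Vale.Agent.Lib.P064.RG

open Finset SimpleGraph Vale.Agent.KK Vale.Agent.KK.RG

variable {V : Type*} [Fintype V]

open Classical in
/-- The ball of radius `j` around `A` in `G`. -/
noncomputable def h94bfs_ball (G : SimpleGraph V) (A : Finset V) : ℕ → Finset V
  | 0 => A
  | (j + 1) => h94bfs_ball G A j ∪ univ.filter (fun v => ∃ u ∈ h94bfs_ball G A j, G.Adj u v)

theorem h94bfs_ball_zero (G : SimpleGraph V) (A : Finset V) : h94bfs_ball G A 0 = A := rfl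

theorem h94bfs_mem_succ (G : SimpleGraph V) (A : Finset V) (j : ℕ) (v : V) :
    v ∈ h94bfs_ball G A (j + 1) ↔
      v ∈ h94bfs_ball G A j ∨ ∃ u ∈ h94bfs_ball G A j, G.Adj u v := by
  classical
  simp [h94bfs_ball]

theorem h94bfs_mono_succ (G : SimpleGraph V) (A : Finset V) (j : ℕ) :
    h94bfs_ball G A j ⊆ h94bfs_ball G A (j + 1) := by
  intro v hv
  exact (h94bfs_mem_succ G A j v).2 (Or.inl hv)

theorem h94bfs_mono (G : SimpleGraph V) (A : Finset V) {j k : ℕ} (h : j ≤ k) :
    h94bfs_ball G A j ⊆ h94bfs_ball G A k := by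
  induction h with
  | refl => exact Finset.Subset.refl _
  | step _ ih => exact ih.trans (h94bfs_mono_succ G A _)

theorem h94bfs_adj (G : SimpleGraph V) (A : Finset V) {j : ℕ} {u v : V}
    (hu : u ∈ h94bfs_ball G A j) (h : G.Adj u v) : v ∈ h94bfs_ball G A (j + 1) :=
  (h94bfs_mem_succ G A j v).2 (Or.inr ⟨u, hu, h⟩)

open Classical in
/-- The depth of a vertex: the least radius of a ball containing it (`0` if none). -/
noncomputable def h94bfs_dep (G : SimpleGraph V) (A : Finset V) (v : V) : ℕ :=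
  if h : ∃ j, v ∈ h94bfs_ball G A j then Nat.find h else 0

theorem h94bfs_dep_le (G : SimpleGraph V) (A : Finset V) {j : ℕ} {v : V}
    (hv : v ∈ h94bfs_ball G A j) : h94bfs_dep G A v ≤ j := by
  classical
  have h : ∃ j, v ∈ h94bfs_ball G A j := ⟨j, hv⟩
  unfold h94bfs_dep
  rw [dif_pos h]
  exact Nat.find_min' h hv

theorem h94bfs_dep_mem (G : SimpleGraph V) (A : Finset V) {j : ℕ} {v : V}
    (hv : v ∈ h94bfs_ball G A j) : v ∈ h94bfs_ball G A (h94bfs_dep G A v) := by
  classical
  have h : ∃ j, v ∈ h94bfs_ball G A j := ⟨j, hv⟩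
  unfold h94bfs_dep
  rw [dif_pos h]
  exact Nat.find_spec h

theorem h94bfs_not_mem_of_lt (G : SimpleGraph V) (A : Finset V) {j : ℕ} {v : V}
    (hj : j < h94bfs_dep G A v) : v ∉ h94bfs_ball G A j := by
  intro hv
  have := h94bfs_dep_le G A hv
  omega

open Classical in
/-- A parent: a neighbour in the previous ball (the vertex itself if there is none). -/
noncomputable def h94bfs_par (G : SimpleGraph V) (A : Finset V) (v : V) : V :=
  if h : ∃ u, u ∈ h94bfs_ball G A (h94bfs_dep G A v - 1) ∧ G.Adj v u then Classical.choose h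
  else v

theorem h94bfs_par_spec (G : SimpleGraph V) (A : Finset V) {j : ℕ} {v : V}
    (hv : v ∈ h94bfs_ball G A j) (hA : v ∉ A) :
    h94bfs_par G A v ∈ h94bfs_ball G A (h94bfs_dep G A v - 1) ∧
      G.Adj v (h94bfs_par G A v) ∧ 0 < h94bfs_dep G A v := by
  classical
  have hmem := h94bfs_dep_mem G A hv
  have hpos : 0 < h94bfs_dep G A v := by
    rcases Nat.eq_zero_or_pos (h94bfs_dep G A v) with h0 | h0
    · rw [h0] at hmem
      exact absurd hmem hA
    · exact h0
  obtain ⟨m, hm⟩ : ∃ m, h94bfs_dep G A v = m + 1 := ⟨h94bfs_dep G A v - 1, by omega⟩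
  have hnot : v ∉ h94bfs_ball G A m := h94bfs_not_mem_of_lt G A (by omega)
  rw [hm] at hmem
  have hex : ∃ u, u ∈ h94bfs_ball G A (h94bfs_dep G A v - 1) ∧ G.Adj v u := by
    rcases (h94bfs_mem_succ G A m v).1 hmem with h1 | ⟨u, hu, huv⟩
    · exact absurd h1 hnot
    · refine ⟨u, ?_, huv.symm⟩
      have : h94bfs_dep G A v - 1 = m := by omega
      rw [this]
      exact hu
  unfold h94bfs_par
  rw [dif_pos hex]
  exact ⟨(Classical.choose_spec hex).1, (Classical.choose_spec hex).2, hpos⟩

theorem exists_bfs {V : Type*} [Fintype V] (G : SimpleGraph V) (A : Finset V) (r : ℕ)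
    (hr : 1 ≤ r) : Nonempty (Bfs G A r) := by
  classical
  refine ⟨{
    Bd := h94bfs_ball G A (r - 1)
    dep := h94bfs_dep G A
    par := h94bfs_par G A
    subA := ?_
    dep_zero := ?_
    dep_lt := ?_
    par_mem := ?_
    par_adj := ?_
    par_dep := ?_
    dep_adj := ?_
    closed := ?_ }⟩
  · exact h94bfs_mono G A (Nat.zero_le _)
  · intro v hv
    constructor
    · intro h0
      have := h94bfs_dep_mem G A hv
      rw [h0] at this
      exact this
    · intro hA
      have h0 : v ∈ h94bfs_ball G A 0 := hA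
      have := h94bfs_dep_le G A h0
      omega
  · intro v hv
    have := h94bfs_dep_le G A hv
    omega
  · intro v hv hA
    obtain ⟨h1, _, h3⟩ := h94bfs_par_spec G A hv hA
    have hle := h94bfs_dep_le G A hv
    exact h94bfs_mono G A (by omega) h1
  · intro v hv hA
    exact (h94bfs_par_spec G A hv hA).2.1
  · intro v hv hA
    obtain ⟨h1, h2, h3⟩ := h94bfs_par_spec G A hv hA
    have hle := h94bfs_dep_le G A h1
    have hge : h94bfs_dep G A v ≤ h94bfs_dep G A (h94bfs_par G A v) + 1 :=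
      h94bfs_dep_le G A (h94bfs_adj G A (h94bfs_dep_mem G A h1) h2.symm)
    omega
  · intro u hu v _ huv
    exact h94bfs_dep_le G A (h94bfs_adj G A (h94bfs_dep_mem G A hu) huv)
  · intro u hu v huv hlt
    have h1 := h94bfs_adj G A (h94bfs_dep_mem G A hu) huv
    exact h94bfs_mono G A (by omega) h1

end Vale.Agent.Lib.P064.RG
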