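import Vale.Agent.KK.RG.Defs

/-!
# RG5: few non-tree edges inside the breadth-first ball

In a host with the density property, the ball of radius `r` around the endpoints of an edge set
`S` (in the graph with `S` deleted) has at most `3 |S|` edges that are not parent edges.
-/

namespace Vale.Agent.Lib.P064.RG

open Finset SimpleGraph Vale.Agent.KK Vale.Agent.KK.RG

theorem x5_mem_vset {V : Type*} [Fintype V] {D : Finset (Sym2 V)} {v : V} :
    v ∈ vset D ↔ ∃ e ∈ D, v ∈ e := by
  classical
  simp [vset]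

theorem x5_out_eq {V : Type*} (e : Sym2 V) : s((Quot.out e).1, (Quot.out e).2) = e :=
  Quot.out_eq e

theorem x5_out_fst_mem {V : Type*} (e : Sym2 V) : (Quot.out e).1 ∈ e := by
  have h := Sym2.mem_mk_left (Quot.out e).1 (Quot.out e).2
  rwa [x5_out_eq] at h

theorem x5_out_snd_mem {V : Type*} (e : Sym2 V) : (Quot.out e).2 ∈ e := by
  have h := Sym2.mem_mk_right (Quot.out e).1 (Quot.out e).2
  rwa [x5_out_eq] at h

theorem x5_mem_out {V : Type*} {e : Sym2 V} {v : V} (hv : v ∈ e) :
    v = (Quot.out e).1 ∨ v = (Quot.out e).2 := by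
  rw [← x5_out_eq e, Sym2.mem_iff] at hv
  exact hv

theorem x5_card_vset_le {V : Type*} [Fintype V] (D : Finset (Sym2 V)) :
    (vset D).card ≤ 2 * D.card := by
  classical
  have hsub : vset D ⊆ D.biUnion (fun e => {(Quot.out e).1, (Quot.out e).2}) := by
    intro v hv
    obtain ⟨e, he, hve⟩ := x5_mem_vset.1 hv
    rw [Finset.mem_biUnion]
    refine ⟨e, he, ?_⟩
    rcases x5_mem_out hve with h | h
    · simp [h]
    · simp [h]
  calc (vset D).card ≤ (D.biUnion (fun e => ({(Quot.out e).1, (Quot.out e).2} : Finset V))).card :=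
        card_le_card hsub
    _ ≤ ∑ e ∈ D, ({(Quot.out e).1, (Quot.out e).2} : Finset V).card := card_biUnion_le
    _ ≤ ∑ _e ∈ D, 2 := sum_le_sum fun e _ => card_le_two
    _ = 2 * D.card := by simp [mul_comm]

theorem card_X_le {V : Type*} [Fintype V] (H : SimpleGraph V) (c lam : ℝ)
    (hlam : 1 < lam) (hD : Dens H c lam) (S : Finset (Sym2 V)) (hS : ∀ e ∈ S, e ∈ H.edgeSet)
    (r : ℕ) (hr : 1 ≤ r) (hcr : lam ^ (3 * r) ≤ c)
    (B : Bfs (H.deleteEdges (S : Set (Sym2 V))) (vset S) r) :
    B.X.card ≤ 3 * S.card := by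
  classical
  -- membership in X
  have hXmem : ∀ e, e ∈ B.X ↔ e ∈ (H.deleteEdges (S : Set (Sym2 V))).edgeSet ∧
      (∀ v ∈ e, v ∈ B.Bd) ∧ ¬ ∃ v ∈ B.Bd, v ∉ vset S ∧ e = s(v, B.par v) := by
    intro e
    simp [Bfs.X]
  -- iterates of the parent map
  have iter : ∀ u, u ∈ B.Bd → ∀ j, j < B.dep u →
      (B.par^[j] u ∈ B.Bd ∧ B.par^[j] u ∉ vset S ∧ B.dep (B.par^[j] u) + j = B.dep u) := by
    intro u hu j
    induction j with
    | zero =>
      intro hj
      refine ⟨hu, ?_, by simp⟩
      intro hA'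
      have := (B.dep_zero u hu).2 hA'
      omega
    | succ j ih =>
      intro hj
      obtain ⟨h1, h2, h3⟩ := ih (by omega)
      rw [Function.iterate_succ_apply']
      have hm := B.par_mem _ h1 h2
      have hd := B.par_dep _ h1 h2
      refine ⟨hm, ?_, by omega⟩
      intro hA'
      have := (B.dep_zero _ hm).2 hA'
      omega
  -- ancestors
  set anc : V → Finset V := fun u => (range (B.dep u)).image (fun j => B.par^[j] u) with hanc
  set V' : Finset V := B.X.biUnion (fun e => anc (Quot.out e).1 ∪ anc (Quot.out e).2) with hV'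
  have hanc_sub : ∀ e ∈ B.X, ∀ u, u ∈ e → anc u ⊆ V' := by
    intro e he u hu w hw
    rw [hV', Finset.mem_biUnion]
    refine ⟨e, he, ?_⟩
    rcases x5_mem_out hu with h | h
    · rw [← h]; exact Finset.mem_union_left _ hw
    · rw [← h]; exact Finset.mem_union_right _ hw
  have hV'ex : ∀ w ∈ V', ∃ e ∈ B.X, ∃ u, u ∈ e ∧ w ∈ anc u := by
    intro w hw
    rw [hV', Finset.mem_biUnion] at hw
    obtain ⟨e, he, hw⟩ := hw
    rcases Finset.mem_union.1 hw with h | h
    · exact ⟨e, he, (Quot.out e).1, x5_out_fst_mem e, h⟩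
    · exact ⟨e, he, (Quot.out e).2, x5_out_snd_mem e, h⟩
  have hV'prop : ∀ w ∈ V', w ∈ B.Bd ∧ w ∉ vset S ∧ (B.par w ∈ V' ∨ B.par w ∈ vset S) := by
    intro w hw
    obtain ⟨e, he, u, hue, hwu⟩ := hV'ex w hw
    have huB : u ∈ B.Bd := ((hXmem e).1 he).2.1 u hue
    rw [hanc, Finset.mem_image] at hwu
    obtain ⟨j, hj, rfl⟩ := hwu
    rw [Finset.mem_range] at hj
    obtain ⟨h1, h2, h3⟩ := iter u huB j hj
    refine ⟨h1, h2, ?_⟩
    by_cases hj1 : j + 1 < B.dep u
    · left
      apply hanc_sub e he u hue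
      rw [hanc, Finset.mem_image]
      exact ⟨j + 1, Finset.mem_range.2 hj1, Function.iterate_succ_apply' _ _ _⟩
    · right
      have hm := B.par_mem _ h1 h2
      have hd := B.par_dep _ h1 h2
      exact (B.dep_zero _ hm).1 (by omega)
  -- size of V'
  obtain ⟨r', rfl⟩ : ∃ r', r = r' + 1 := ⟨r - 1, by omega⟩
  have hanc_card : ∀ e ∈ B.X, ∀ u, u ∈ e → (anc u).card ≤ r' := by
    intro e he u hue
    have huB : u ∈ B.Bd := ((hXmem e).1 he).2.1 u hue
    have := B.dep_lt u huB
    calc (anc u).card ≤ (range (B.dep u)).card := Finset.card_image_le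
      _ = B.dep u := Finset.card_range _
      _ ≤ r' := by omega
  have hV'card : V'.card ≤ 2 * r' * B.X.card := by
    calc V'.card ≤ ∑ e ∈ B.X, (anc (Quot.out e).1 ∪ anc (Quot.out e).2).card := card_biUnion_le
      _ ≤ ∑ _e ∈ B.X, 2 * r' := by
          refine sum_le_sum fun e he => ?_
          have h1 : (anc (Quot.out e).1).card ≤ r' := hanc_card e he _ (x5_out_fst_mem e)
          have h2 : (anc (Quot.out e).2).card ≤ r' := hanc_card e he _ (x5_out_snd_mem e)
          have := Finset.card_union_le (anc (Quot.out e).1) (anc (Quot.out e).2)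
          omega
      _ = 2 * r' * B.X.card := by simp [mul_comm]
  -- parent edges of V'
  set F' : Finset (Sym2 V) := V'.image (fun v => s(v, B.par v)) with hF'
  have hinj : Set.InjOn (fun v => s(v, B.par v)) (V' : Set V) := by
    intro v hv v' hv' heq
    have hv := hV'prop v (Finset.mem_coe.1 hv)
    have hv' := hV'prop v' (Finset.mem_coe.1 hv')
    simp only [Sym2.eq_iff] at heq
    rcases heq with ⟨h, _⟩ | ⟨h1, h2⟩
    · exact h
    · exfalso
      have e1 := B.par_dep v hv.1 hv.2.1
      have e2 := B.par_dep v' hv'.1 hv'.2.1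
      rw [h2] at e1
      rw [← h1] at e2
      omega
  have hF'card : F'.card = V'.card := Finset.card_image_of_injOn hinj
  -- edges of the deleted graph are edges of H outside S
  have hGedge : ∀ e, e ∈ (H.deleteEdges (S : Set (Sym2 V))).edgeSet → e ∈ H.edgeSet ∧ e ∉ S := by
    intro e he
    rw [SimpleGraph.edgeSet_deleteEdges] at he
    exact ⟨he.1, fun h => he.2 (Finset.mem_coe.2 h)⟩
  have hF'edge : ∀ e ∈ F', e ∈ (H.deleteEdges (S : Set (Sym2 V))).edgeSet ∧
      ∃ v ∈ B.Bd, v ∉ vset S ∧ e = s(v, B.par v) := by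
    intro e he
    rw [hF', Finset.mem_image] at he
    obtain ⟨v, hv, rfl⟩ := he
    have hv := hV'prop v hv
    exact ⟨(SimpleGraph.mem_edgeSet _).2 (B.par_adj v hv.1 hv.2.1), v, hv.1, hv.2.1, rfl⟩
  have hd1 : Disjoint S B.X := by
    rw [Finset.disjoint_left]
    intro e heS heX
    exact (hGedge e ((hXmem e).1 heX).1).2 heS
  have hd2 : Disjoint (S ∪ B.X) F' := by
    rw [Finset.disjoint_left]
    intro e he heF
    obtain ⟨hG, hpar⟩ := hF'edge e heF
    rcases Finset.mem_union.1 he with h | h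
    · exact (hGedge e hG).2 h
    · exact ((hXmem e).1 h).2.2 hpar
  set D : Finset (Sym2 V) := S ∪ B.X ∪ F' with hDdef
  have hDcard : D.card = S.card + B.X.card + V'.card := by
    rw [hDdef, Finset.card_union_of_disjoint hd2, Finset.card_union_of_disjoint hd1, hF'card]
  have hDedge : ∀ e ∈ D, e ∈ H.edgeSet := by
    intro e he
    rw [hDdef] at he
    rcases Finset.mem_union.1 he with h | h
    · rcases Finset.mem_union.1 h with h | h
      · exact hS e h
      · exact (hGedge e ((hXmem e).1 h).1).1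
    · exact (hGedge e (hF'edge e h).1).1
  have hvD : vset D ⊆ vset S ∪ V' := by
    intro v hv
    obtain ⟨e, he, hve⟩ := x5_mem_vset.1 hv
    rw [hDdef] at he
    rcases Finset.mem_union.1 he with h | h
    · rcases Finset.mem_union.1 h with h | h
      · exact Finset.mem_union_left _ (x5_mem_vset.2 ⟨e, h, hve⟩)
      · by_cases hvA : v ∈ vset S
        · exact Finset.mem_union_left _ hvA
        · apply Finset.mem_union_right
          have hvB : v ∈ B.Bd := ((hXmem e).1 h).2.1 v hve
          have hpos : 0 < B.dep v := by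
            rcases Nat.eq_zero_or_pos (B.dep v) with h0 | h0
            · exact absurd ((B.dep_zero v hvB).1 h0) hvA
            · exact h0
          apply hanc_sub e h v hve
          rw [hanc, Finset.mem_image]
          exact ⟨0, Finset.mem_range.2 hpos, rfl⟩
    · rw [hF', Finset.mem_image] at h
      obtain ⟨w, hw, rfl⟩ := h
      rw [Sym2.mem_iff] at hve
      rcases hve with rfl | rfl
      · exact Finset.mem_union_right _ hw
      · rcases (hV'prop w hw).2.2 with h | h
        · exact Finset.mem_union_right _ h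
        · exact Finset.mem_union_left _ h
  have hvDcard : (vset D).card ≤ 2 * S.card + V'.card := by
    calc (vset D).card ≤ (vset S ∪ V').card := card_le_card hvD
      _ ≤ (vset S).card + V'.card := Finset.card_union_le _ _
      _ ≤ 2 * S.card + V'.card := by have := x5_card_vset_le S; omega
  -- the density inequality
  have hdens := hD D hDedge
  have hlam0 : 0 < lam := by linarith
  have hc1 : 1 ≤ c := le_trans (one_le_pow₀ hlam.le) hcr
  have hc0 : 0 < c := by linarith
  by_contra hcon
  rw [not_le] at hcon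
  obtain ⟨d, hd⟩ : ∃ d, B.X.card = S.card + d := ⟨B.X.card - S.card, by omega⟩
  have hd2s : 2 * S.card + 1 ≤ d := by omega
  set t := V'.card with ht
  have h1 : c ^ D.card ≤ c ^ (2 * S.card + t) * lam ^ D.card :=
    le_trans hdens (mul_le_mul_of_nonneg_right (pow_le_pow_right₀ hc1 hvDcard) (by positivity))
  have hsplit : D.card = (2 * S.card + t) + d := by rw [hDcard, hd]; ring
  have h2 : c ^ d ≤ lam ^ D.card := by
    have h3 : c ^ (2 * S.card + t) * c ^ d ≤ c ^ (2 * S.card + t) * lam ^ D.card := by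
      rw [← pow_add, ← hsplit]; exact h1
    exact le_of_mul_le_mul_left h3 (by positivity)
  have h4 : lam ^ (3 * (r' + 1) * d) ≤ lam ^ D.card := by
    calc lam ^ (3 * (r' + 1) * d) = (lam ^ (3 * (r' + 1))) ^ d := by rw [pow_mul]
      _ ≤ c ^ d := pow_le_pow_left₀ (by positivity) hcr d
      _ ≤ lam ^ D.card := h2
  have h5 : 3 * (r' + 1) * d ≤ D.card := (pow_le_pow_iff_right₀ hlam).1 h4
  rw [hDcard, hd] at h5
  have h6 : t ≤ 2 * r' * (S.card + d) := by rw [← hd]; exact hV'card
  have h7 : r' * (2 * S.card + 1) ≤ r' * d := Nat.mul_le_mul_left r' hd2s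
  nlinarith
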