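import Vale.Agent.KK.RG.Defs

/-!
# Counting colourings with prescribed light and heavy positions
-/

namespace Vale.Agent.Lib.P064.RG

open Finset SimpleGraph
open Vale.Agent.KK Vale.Agent.KK.RG

theorem card_colorings {ι : Type*} [Fintype ι] [DecidableEq ι] (k : ℕ) (I0 I1 : Finset ι)
    (hdisj : Disjoint I0 I1) :
    (univ.filter (fun w : ι → Fin (k + 1) => (∀ i ∈ I0, w i = 0) ∧ ∀ i ∈ I1, w i ≠ 0)).card =
      k ^ I1.card * (k + 1) ^ (Fintype.card ι - I0.card - I1.card) := by
  classical
  set t : ι → Finset (Fin (k + 1)) := fun i =>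
    if i ∈ I0 then {0} else if i ∈ I1 then univ.erase 0 else univ with ht
  have hset : (univ.filter (fun w : ι → Fin (k + 1) =>
      (∀ i ∈ I0, w i = 0) ∧ ∀ i ∈ I1, w i ≠ 0)) = Fintype.piFinset t := by
    ext w
    simp only [mem_filter, mem_univ, true_and, Fintype.mem_piFinset, ht]
    constructor
    · rintro ⟨h0, h1⟩ i
      by_cases hi0 : i ∈ I0
      · simp [hi0, h0 i hi0]
      · by_cases hi1 : i ∈ I1
        · simp [hi0, hi1, h1 i hi1]
        · simp [hi0, hi1]
    · intro hw
      refine ⟨fun i hi => ?_, fun i hi => ?_⟩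
      · have := hw i
        simpa [hi] using this
      · have hi0 : i ∉ I0 := fun h => (Finset.disjoint_left.1 hdisj h) hi
        have := hw i
        simpa [hi0, hi] using this
  rw [hset, Fintype.card_piFinset]
  have hcard : ∀ i, (t i).card = if i ∈ I0 then 1 else if i ∈ I1 then k else k + 1 := by
    intro i
    simp only [ht]
    by_cases hi0 : i ∈ I0
    · simp [hi0]
    · by_cases hi1 : i ∈ I1
      · simp [hi0, hi1]
      · simp [hi0, hi1]
  rw [Finset.prod_congr rfl (fun i _ => hcard i)]
  have hsplit : ∀ i : ι, (if i ∈ I0 then 1 else if i ∈ I1 then k else k + 1) =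
      (if i ∈ I1 then k else 1) * (if i ∈ I0 ∪ I1 then 1 else k + 1) := by
    intro i
    by_cases hi0 : i ∈ I0
    · have hi1 : i ∉ I1 := fun h => (Finset.disjoint_left.1 hdisj hi0) h
      simp [hi0, hi1]
    · by_cases hi1 : i ∈ I1
      · simp [hi0, hi1]
      · simp [hi0, hi1]
  rw [Finset.prod_congr rfl (fun i _ => hsplit i), Finset.prod_mul_distrib]
  congr 1
  · rw [Finset.prod_ite_mem, Finset.univ_inter, Finset.prod_const]
  · have h1 : ∀ i : ι, (if i ∈ I0 ∪ I1 then 1 else k + 1) =
        (if i ∈ (I0 ∪ I1)ᶜ then k + 1 else 1) := by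
      intro i
      by_cases h : i ∈ I0 ∪ I1
      · rw [if_pos h, if_neg (by rw [Finset.mem_compl]; exact not_not.2 h)]
      · rw [if_neg h, if_pos (by rw [Finset.mem_compl]; exact h)]
    rw [Finset.prod_congr rfl (fun i _ => h1 i), Finset.prod_ite_mem, Finset.univ_inter,
      Finset.prod_const, Finset.card_compl, Finset.card_union_of_disjoint hdisj]
    congr 1
    omega

end Vale.Agent.Lib.P064.RG
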