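import Vale.Agent.KK.RG.Defs

/-!
P064: the core of an edge set satisfies the Hall-type bound: for every vertex set `A`, the
core has at most `|A|` edges with all endpoints in `A`.
-/

namespace Vale.Agent.Lib.P064.RG

open Finset SimpleGraph Vale.Agent.KK Vale.Agent.KK.RG

/-- The endpoints of a set of edges all of whose endpoints lie in `A` lie in `A`. -/
theorem ch_vset_subset {V : Type*} [Fintype V] (Y : Finset (Sym2 V)) (A : Finset V)
    (hY : ∀ e ∈ Y, ∀ v ∈ e, v ∈ A) : vset Y ⊆ A := by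
  classical
  intro v hv
  unfold vset at hv
  obtain ⟨e, he, hve⟩ := (Finset.mem_filter.mp hv).2
  exact hY e he v hve

/-- A violating edge set contains a minimal violating edge set. -/
theorem ch_exists_minViol {V : Type*} [Fintype V] (Y : Finset (Sym2 V)) (hY : Viol Y) :
    ∃ Y0, Y0 ⊆ Y ∧ MinViol Y0 := by
  classical
  have hne : (Y.powerset.filter (fun Z => Viol Z)).Nonempty :=
    ⟨Y, Finset.mem_filter.mpr ⟨Finset.mem_powerset.mpr (Finset.Subset.refl Y), hY⟩⟩
  obtain ⟨Y0, hY0, hmin⟩ := Finset.exists_min_image _ (fun Z : Finset (Sym2 V) => Z.card) hne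
  rw [Finset.mem_filter, Finset.mem_powerset] at hY0
  refine ⟨Y0, hY0.1, hY0.2, ?_⟩
  intro Y' hY' hV
  have hmem : Y' ∈ Y.powerset.filter (fun Z => Viol Z) :=
    Finset.mem_filter.mpr ⟨Finset.mem_powerset.mpr (hY'.subset.trans hY0.1), hV⟩
  have h1 := hmin Y' hmem
  have h2 := Finset.card_lt_card hY'
  omega

/-- A set of core edges with all endpoints in `A` has at most `|A|` elements. -/
theorem ch_card_le {V : Type*} [Fintype V] (L : Finset (Sym2 V)) (A : Finset V)
    (Y : Finset (Sym2 V)) (hYc : Y ⊆ core L) (hYA : ∀ e ∈ Y, ∀ v ∈ e, v ∈ A) :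
    Y.card ≤ A.card := by
  classical
  by_contra hcon
  push Not at hcon
  have hviol : Viol Y := by
    unfold Viol
    exact lt_of_le_of_lt (Finset.card_le_card (ch_vset_subset Y A hYA)) hcon
  obtain ⟨Y0, hY0Y, hY0⟩ := ch_exists_minViol Y hviol
  have hpos : 0 < Y0.card := by
    have := hY0.1
    unfold Viol at this
    omega
  obtain ⟨e, he⟩ := Finset.card_pos.mp hpos
  have hcoreL : core L ⊆ L := by
    unfold core
    exact Finset.filter_subset _ _
  have hecore : e ∈ core L := hYc (hY0Y he)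
  unfold core at hecore
  rw [Finset.mem_filter] at hecore
  exact hecore.2 ⟨Y0, (hY0Y.trans hYc).trans hcoreL, he, hY0⟩

theorem core_hall {V : Type*} [Fintype V] (L : Finset (Sym2 V)) (A : Finset V) :
    {e ∈ (SimpleGraph.fromEdgeSet (core L : Set (Sym2 V))).edgeSet | ∀ v ∈ e, v ∈ A}.ncard ≤
      A.card := by
  classical
  have hsub : {e ∈ (SimpleGraph.fromEdgeSet (core L : Set (Sym2 V))).edgeSet | ∀ v ∈ e, v ∈ A}
      ⊆ (((core L).filter (fun e => ∀ v ∈ e, v ∈ A) : Finset (Sym2 V)) : Set (Sym2 V)) := by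
    intro e he
    obtain ⟨he1, he2⟩ := he
    rw [SimpleGraph.edgeSet_fromEdgeSet] at he1
    rw [Finset.mem_coe, Finset.mem_filter]
    exact ⟨Finset.mem_coe.mp he1.1, he2⟩
  have h1 := Set.ncard_le_ncard hsub (Finset.finite_toSet _)
  rw [Set.ncard_coe_finset] at h1
  refine h1.trans (ch_card_le L A _ (Finset.filter_subset _ _) ?_)
  intro e he
  exact (Finset.mem_filter.mp he).2

end Vale.Agent.Lib.P064.RG
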