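import Vale.Agent.KK.RG.Defs

/-!
# Degrees along a path are legs plus a bounded excess (P064, RG9)

Along a path `f 0, ..., f r` of a host with the density property, the neighbours of `f i`
are its legs, at most two path neighbours, and an excess whose total over the path is at
most four.
-/

namespace Vale.Agent.Lib.P064.RG

open Finset SimpleGraph Vale.Agent.KK Vale.Agent.KK.RG

/-- The exponent comparison extracted from the density property. -/
private lemma dl_arith (c lam : ℝ) (hlam : 1 < lam) (r : ℕ)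
    (hcr : lam ^ (3 * r) ≤ c) (y w d Ymax : ℕ) (hyw : w + d ≤ y) (hy : y ≤ Ymax)
    (hdens : c ^ y ≤ c ^ w * lam ^ y) : 3 * r * d ≤ Ymax := by
  have hc1 : 1 ≤ c := le_trans (one_le_pow₀ hlam.le) hcr
  have hc0 : 0 < c := lt_of_lt_of_le one_pos hc1
  have h1 : c ^ (w + d) ≤ c ^ w * lam ^ y := le_trans (pow_le_pow_right₀ hc1 hyw) hdens
  have h2 : c ^ d ≤ lam ^ y := by
    rw [pow_add] at h1
    exact le_of_mul_le_mul_left h1 (pow_pos hc0 w)
  have h3 : lam ^ (3 * r * d) ≤ lam ^ Ymax := by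
    calc lam ^ (3 * r * d) = (lam ^ (3 * r)) ^ d := by rw [pow_mul]
      _ ≤ c ^ d := pow_le_pow_left₀ (by positivity) hcr d
      _ ≤ lam ^ y := h2
      _ ≤ lam ^ Ymax := pow_le_pow_right₀ hlam.le hy
  exact (pow_le_pow_iff_right₀ hlam).mp h3

open Classical in
/-- The neighbours of `f i` that are neither legs nor the two path neighbours. -/
private noncomputable def dlExtra {V : Type*} [Fintype V] (H : SimpleGraph V) (f : ℕ → V)
    (r i : ℕ) : Finset V :=
  univ.filter (fun v => H.Adj (f i) v ∧ v ∉ legs H f r i ∧ v ≠ f (i - 1) ∧ v ≠ f (i + 1))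

private lemma mem_dlExtra {V : Type*} [Fintype V] (H : SimpleGraph V) (f : ℕ → V)
    (r i : ℕ) (v : V) :
    v ∈ dlExtra H f r i ↔
      H.Adj (f i) v ∧ v ∉ legs H f r i ∧ v ≠ f (i - 1) ∧ v ≠ f (i + 1) := by
  classical
  simp only [dlExtra, mem_filter, mem_univ, true_and]

private lemma dl_mem_legs {V : Type*} [Fintype V] (H : SimpleGraph V) (f : ℕ → V)
    (r i : ℕ) (u : V) :
    u ∈ legs H f r i ↔ (∀ j ≤ r, u ≠ f j) ∧ H.Adj (f i) u ∧ ∀ j < i, ¬ H.Adj (f j) u := by
  classical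
  simp only [legs, mem_filter, mem_univ, true_and]

private lemma dl_mem_vset {V : Type*} [Fintype V] (D : Finset (Sym2 V)) (v : V) :
    v ∈ vset D ↔ ∃ e ∈ D, v ∈ e := by
  classical
  simp only [vset, mem_filter, mem_univ, true_and]

private lemma dl_deg {V : Type*} [Fintype V] (H : SimpleGraph V) (f : ℕ → V) (r i : ℕ) :
    (H.neighborSet (f i)).ncard ≤ (legs H f r i).card + 2 + (dlExtra H f r i).card := by
  classical
  have hsub : (H.neighborSet (f i)).toFinset ⊆
      (legs H f r i ∪ {f (i - 1), f (i + 1)}) ∪ dlExtra H f r i := by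
    intro v hv
    rw [Set.mem_toFinset, SimpleGraph.mem_neighborSet] at hv
    rw [mem_union, mem_union, mem_insert, mem_singleton, mem_dlExtra]
    by_cases h1 : v ∈ legs H f r i
    · exact Or.inl (Or.inl h1)
    by_cases h2 : v = f (i - 1)
    · exact Or.inl (Or.inr (Or.inl h2))
    by_cases h3 : v = f (i + 1)
    · exact Or.inl (Or.inr (Or.inr h3))
    · exact Or.inr ⟨hv, h1, h2, h3⟩
  rw [Set.ncard_eq_toFinset_card']
  calc (H.neighborSet (f i)).toFinset.card
      ≤ ((legs H f r i ∪ {f (i - 1), f (i + 1)}) ∪ dlExtra H f r i).card := card_le_card hsub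
    _ ≤ (legs H f r i ∪ {f (i - 1), f (i + 1)}).card + (dlExtra H f r i).card :=
        card_union_le _ _
    _ ≤ ((legs H f r i).card + ({f (i - 1), f (i + 1)} : Finset V).card) +
          (dlExtra H f r i).card := Nat.add_le_add_right (card_union_le _ _) _
    _ ≤ (legs H f r i).card + 2 + (dlExtra H f r i).card :=
        Nat.add_le_add_right (Nat.add_le_add_left card_le_two _) _

private lemma dl_count {V : Type*} [Fintype V] (H : SimpleGraph V) (c lam : ℝ)
    (hlam : 1 < lam) (hD : Dens H c lam) (r : ℕ) (hr : 2 ≤ r) (hcr : lam ^ (3 * r) ≤ c)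
    (f : ℕ → V) (hinj : Set.InjOn f (Set.Iic r)) (hadj : ∀ i < r, H.Adj (f i) (f (i + 1))) :
    ∑ i ∈ range (r + 1), (dlExtra H f r i).card ≤ 4 := by
  classical
  obtain ⟨P, hPdef⟩ : ∃ P : Finset V, P = (range (r + 1)).image f := ⟨_, rfl⟩
  have hfinj : ∀ i j, i ≤ r → j ≤ r → f i = f j → i = j := fun i j hi hj h => hinj hi hj h
  have hmemP : ∀ i, i ≤ r → f i ∈ P := fun i hi => by
    rw [hPdef]; exact mem_image_of_mem f (mem_range.mpr (Nat.lt_succ_of_le hi))
  have hPidx : ∀ v ∈ P, ∃ j, j ≤ r ∧ f j = v := by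
    intro v hv
    rw [hPdef] at hv
    obtain ⟨j, hj, hjv⟩ := mem_image.mp hv
    exact ⟨j, Nat.lt_succ_iff.mp (mem_range.mp hj), hjv⟩
  have hPcard : P.card ≤ r + 1 := by
    have h := card_image_le (s := range (r + 1)) (f := f)
    rw [card_range] at h
    rw [hPdef]; exact h
  obtain ⟨T, hT⟩ : ∃ T : Finset (Σ _ : ℕ, V),
      T = (range (r + 1)).sigma (fun i => dlExtra H f r i) := ⟨_, rfl⟩
  have hsum : ∑ i ∈ range (r + 1), (dlExtra H f r i).card = T.card := by
    rw [hT]; exact (card_sigma _ _).symm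
  rw [hsum]
  have hTmem : ∀ p ∈ T, p.1 ≤ r ∧ H.Adj (f p.1) p.2 ∧ p.2 ∉ legs H f r p.1 ∧
      p.2 ≠ f (p.1 - 1) ∧ p.2 ≠ f (p.1 + 1) := by
    intro p hp
    rw [hT, mem_sigma, mem_dlExtra] at hp
    exact ⟨Nat.lt_succ_iff.mp (mem_range.mp hp.1), hp.2⟩
  obtain ⟨TA, hTA⟩ : ∃ TA, TA = T.filter (fun p => p.2 ∈ P) := ⟨_, rfl⟩
  obtain ⟨TB, hTB⟩ : ∃ TB, TB = T.filter (fun p => ¬ p.2 ∈ P) := ⟨_, rfl⟩
  have hab : TA.card + TB.card = T.card := by
    rw [hTA, hTB]; exact card_filter_add_card_filter_not _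
  have hTAmem : ∀ p ∈ TA, p ∈ T ∧ p.2 ∈ P := fun p hp => by
    rw [hTA] at hp; exact mem_filter.mp hp
  have hTBmem : ∀ p ∈ TB, p ∈ T ∧ p.2 ∉ P := fun p hp => by
    rw [hTB] at hp; exact mem_filter.mp hp
  -- the first neighbour on the path
  obtain ⟨j0, hj0def⟩ : ∃ j0 : V → ℕ, ∀ v, j0 v =
      if h : ∃ j, H.Adj (f j) v then Nat.find h else 0 := ⟨_, fun _ => rfl⟩
  have hj0 : ∀ p ∈ TB, H.Adj (f (j0 p.2)) p.2 ∧ j0 p.2 < p.1 := by
    intro p hp
    obtain ⟨hpT, hpP⟩ := hTBmem p hp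
    obtain ⟨hpr, hpadj, hpleg, -, -⟩ := hTmem p hpT
    have hex : ∃ j, H.Adj (f j) p.2 := ⟨p.1, hpadj⟩
    have hj0eq : j0 p.2 = Nat.find hex := by rw [hj0def, dif_pos hex]
    have hearlier : ∃ j, j < p.1 ∧ H.Adj (f j) p.2 := by
      by_contra hcon
      push Not at hcon
      apply hpleg
      rw [dl_mem_legs]
      refine ⟨?_, hpadj, hcon⟩
      intro j hj heq
      exact hpP (heq ▸ hmemP j hj)
    obtain ⟨j, hj, hjadj⟩ := hearlier
    rw [hj0eq]
    exact ⟨Nat.find_spec hex, lt_of_le_of_lt (Nat.find_min' hex hjadj) hj⟩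
  obtain ⟨Ch, hCh⟩ : ∃ Ch, Ch = TA.image (fun p => s(f p.1, p.2)) := ⟨_, rfl⟩
  obtain ⟨EB, hEB⟩ : ∃ EB, EB = TB.image (fun p => s(f p.1, p.2)) := ⟨_, rfl⟩
  obtain ⟨W, hW⟩ : ∃ W, W = TB.image (fun p => p.2) := ⟨_, rfl⟩
  obtain ⟨EB0, hEB0⟩ : ∃ EB0, EB0 = W.image (fun v => s(f (j0 v), v)) := ⟨_, rfl⟩
  obtain ⟨Pth, hPth⟩ : ∃ Pth, Pth = (range r).image (fun i => s(f i, f (i + 1))) :=
    ⟨_, rfl⟩
  obtain ⟨Y, hY⟩ : ∃ Y, Y = (Pth ∪ Ch) ∪ (EB ∪ EB0) := ⟨_, rfl⟩
  have hWmem : ∀ v ∈ W, v ∉ P ∧ H.Adj (f (j0 v)) v ∧ j0 v ≤ r := by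
    intro v hv
    rw [hW] at hv
    obtain ⟨p, hp, hpv⟩ := mem_image.mp hv
    have hpv' : p.2 = v := hpv
    subst hpv'
    obtain ⟨hpT, hpP⟩ := hTBmem p hp
    obtain ⟨h1, h2⟩ := hj0 p hp
    exact ⟨hpP, h1, le_of_lt (lt_of_lt_of_le h2 (hTmem p hpT).1)⟩
  have hIn : ∀ e ∈ Pth ∪ Ch, ∀ v ∈ e, v ∈ P := by
    intro e he v hv
    rcases mem_union.mp he with he | he
    · rw [hPth] at he
      obtain ⟨i, hi, hie⟩ := mem_image.mp he
      have hi' := mem_range.mp hi
      have hv' : v ∈ s(f i, f (i + 1)) := by rw [← hie] at hv; exact hv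
      rcases Sym2.mem_iff.mp hv' with h | h
      · rw [h]; exact hmemP i (by omega)
      · rw [h]; exact hmemP (i + 1) (by omega)
    · rw [hCh] at he
      obtain ⟨p, hp, hpe⟩ := mem_image.mp he
      obtain ⟨hpT, hpP⟩ := hTAmem p hp
      have hv' : v ∈ s(f p.1, p.2) := by rw [← hpe] at hv; exact hv
      rcases Sym2.mem_iff.mp hv' with h | h
      · rw [h]; exact hmemP p.1 (hTmem p hpT).1
      · rw [h]; exact hpP
  have hOut : ∀ e ∈ EB ∪ EB0, ∃ v ∈ e, v ∉ P := by
    intro e he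
    rcases mem_union.mp he with he | he
    · rw [hEB] at he
      obtain ⟨p, hp, hpe⟩ := mem_image.mp he
      refine ⟨p.2, ?_, (hTBmem p hp).2⟩
      rw [← hpe]; exact Sym2.mem_mk_right _ _
    · rw [hEB0] at he
      obtain ⟨v, hv, hve⟩ := mem_image.mp he
      refine ⟨v, ?_, (hWmem v hv).1⟩
      rw [← hve]; exact Sym2.mem_mk_right _ _
  have hdisj1 : Disjoint (Pth ∪ Ch) (EB ∪ EB0) := by
    rw [Finset.disjoint_left]
    intro e he1 he2
    obtain ⟨v, hv, hvP⟩ := hOut e he2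
    exact hvP (hIn e he1 v hv)
  have hPthcard : Pth.card = r := by
    rw [hPth, card_image_of_injOn, card_range]
    intro i hi i' hi' h
    have hi1 : i < r := mem_range.mp (mem_coe.mp hi)
    have hi2 : i' < r := mem_range.mp (mem_coe.mp hi')
    have h' : s(f i, f (i + 1)) = s(f i', f (i' + 1)) := h
    rcases Sym2.eq_iff.mp h' with ⟨h1, -⟩ | ⟨h1, h2⟩
    · exact hfinj i i' (by omega) (by omega) h1
    · have e1 := hfinj i (i' + 1) (by omega) (by omega) h1
      have e2 := hfinj (i + 1) i' (by omega) (by omega) h2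
      omega
  have hEBcard : EB.card = TB.card := by
    rw [hEB, card_image_of_injOn]
    intro p hp p' hp' h
    have hp1 := hTBmem p (mem_coe.mp hp)
    have hp2 := hTBmem p' (mem_coe.mp hp')
    have h' : s(f p.1, p.2) = s(f p'.1, p'.2) := h
    rcases Sym2.eq_iff.mp h' with ⟨h1, h2⟩ | ⟨h1, -⟩
    · exact Sigma.ext (hfinj p.1 p'.1 (hTmem p hp1.1).1 (hTmem p' hp2.1).1 h1) (heq_of_eq h2)
    · exact absurd (h1 ▸ hmemP p.1 (hTmem p hp1.1).1) hp2.2
  have hEB0card : EB0.card = W.card := by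
    rw [hEB0, card_image_of_injOn]
    intro v hv v' hv' h
    have h' : s(f (j0 v), v) = s(f (j0 v'), v') := h
    rcases Sym2.eq_iff.mp h' with ⟨-, h2⟩ | ⟨h1, -⟩
    · exact h2
    · exact absurd (h1 ▸ hmemP (j0 v) (hWmem v (mem_coe.mp hv)).2.2)
        (hWmem v' (mem_coe.mp hv')).1
  have hdisj2 : Disjoint Pth Ch := by
    rw [Finset.disjoint_left]
    intro e he1 he2
    rw [hPth] at he1
    rw [hCh] at he2
    obtain ⟨i, hi, hie⟩ := mem_image.mp he1
    obtain ⟨p, hp, hpe⟩ := mem_image.mp he2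
    have hi1 : i < r := mem_range.mp hi
    obtain ⟨hpT, hpP⟩ := hTAmem p hp
    obtain ⟨hpr, -, -, hne1, hne2⟩ := hTmem p hpT
    have h' : s(f i, f (i + 1)) = s(f p.1, p.2) := hie.trans hpe.symm
    rcases Sym2.eq_iff.mp h' with ⟨h1, h2⟩ | ⟨h1, h2⟩
    · have e1 := hfinj i p.1 (by omega) hpr h1
      apply hne2
      rw [← h2, e1]
    · have e1 := hfinj (i + 1) p.1 (by omega) hpr h2
      apply hne1
      rw [← h1, ← e1, Nat.add_sub_cancel]
  have hdisj3 : Disjoint EB EB0 := by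
    rw [Finset.disjoint_left]
    intro e he1 he2
    rw [hEB] at he1
    rw [hEB0] at he2
    obtain ⟨p, hp, hpe⟩ := mem_image.mp he1
    obtain ⟨v, hv, hve⟩ := mem_image.mp he2
    obtain ⟨hpT, hpP⟩ := hTBmem p hp
    obtain ⟨hvP, -, hvr⟩ := hWmem v hv
    have h' : s(f p.1, p.2) = s(f (j0 v), v) := hpe.trans hve.symm
    rcases Sym2.eq_iff.mp h' with ⟨h1, h2⟩ | ⟨h1, -⟩
    · have e1 := hfinj p.1 (j0 v) (hTmem p hpT).1 hvr h1
      have e2 := (hj0 p hp).2
      rw [h2] at e2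
      omega
    · exact hvP (h1 ▸ hmemP p.1 (hTmem p hpT).1)
  have hTAle : TA.card ≤ 2 * Ch.card := by
    rw [hCh]
    refine card_le_mul_card_image TA 2 (fun e he => ?_)
    obtain ⟨p0, hp0, hp0e⟩ := mem_image.mp he
    obtain ⟨hp0T, hp0P⟩ := hTAmem p0 hp0
    obtain ⟨j, hj, hjv⟩ := hPidx p0.2 hp0P
    have hsub : TA.filter (fun p => s(f p.1, p.2) = e) ⊆ {p0, ⟨j, f p0.1⟩} := by
      intro p hp
      obtain ⟨hpTA, hpe⟩ := mem_filter.mp hp
      obtain ⟨hpT, hpP⟩ := hTAmem p hpTA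
      have h' : s(f p.1, p.2) = s(f p0.1, p0.2) := hpe.trans hp0e.symm
      rw [mem_insert, mem_singleton]
      rcases Sym2.eq_iff.mp h' with ⟨h1, h2⟩ | ⟨h1, h2⟩
      · left
        exact Sigma.ext (hfinj p.1 p0.1 (hTmem p hpT).1 (hTmem p0 hp0T).1 h1) (heq_of_eq h2)
      · right
        have e1 : p.1 = j := hfinj p.1 j (hTmem p hpT).1 hj (h1.trans hjv.symm)
        exact Sigma.ext e1 (heq_of_eq h2)
    exact le_trans (card_le_card hsub) card_le_two
  have hYcard : Y.card = r + Ch.card + (TB.card + W.card) := by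
    rw [hY, card_union_of_disjoint hdisj1, card_union_of_disjoint hdisj2,
      card_union_of_disjoint hdisj3, hPthcard, hEBcard, hEB0card]
  have hYH : ∀ e ∈ Y, e ∈ H.edgeSet := by
    intro e he
    rw [hY] at he
    rcases mem_union.mp he with he | he
    · rcases mem_union.mp he with he | he
      · rw [hPth] at he
        obtain ⟨i, hi, hie⟩ := mem_image.mp he
        rw [← hie]
        exact H.mem_edgeSet.mpr (hadj i (mem_range.mp hi))
      · rw [hCh] at he
        obtain ⟨p, hp, hpe⟩ := mem_image.mp he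
        rw [← hpe]
        exact H.mem_edgeSet.mpr (hTmem p (hTAmem p hp).1).2.1
    · rcases mem_union.mp he with he | he
      · rw [hEB] at he
        obtain ⟨p, hp, hpe⟩ := mem_image.mp he
        rw [← hpe]
        exact H.mem_edgeSet.mpr (hTmem p (hTBmem p hp).1).2.1
      · rw [hEB0] at he
        obtain ⟨v, hv, hve⟩ := mem_image.mp he
        rw [← hve]
        exact H.mem_edgeSet.mpr (hWmem v hv).2.1
  have hvset : (vset Y).card ≤ r + 1 + W.card := by
    have hsub : vset Y ⊆ P ∪ W := by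
      intro v hv
      rw [dl_mem_vset] at hv
      obtain ⟨e, he, hve⟩ := hv
      rw [hY] at he
      rw [mem_union]
      rcases mem_union.mp he with he | he
      · exact Or.inl (hIn e he v hve)
      · rcases mem_union.mp he with he | he
        · rw [hEB] at he
          obtain ⟨p, hp, hpe⟩ := mem_image.mp he
          have hv' : v ∈ s(f p.1, p.2) := by rw [← hpe] at hve; exact hve
          rcases Sym2.mem_iff.mp hv' with h | h
          · rw [h]; exact Or.inl (hmemP p.1 (hTmem p (hTBmem p hp).1).1)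
          · right
            rw [h, hW]
            exact mem_image_of_mem (fun p => p.2) hp
        · rw [hEB0] at he
          obtain ⟨v', hv', hve'⟩ := mem_image.mp he
          have hv'' : v ∈ s(f (j0 v'), v') := by rw [← hve'] at hve; exact hve
          rcases Sym2.mem_iff.mp hv'' with h | h
          · rw [h]; exact Or.inl (hmemP (j0 v') (hWmem v' hv').2.2)
          · rw [h]; exact Or.inr hv'
    calc (vset Y).card ≤ (P ∪ W).card := card_le_card hsub
      _ ≤ P.card + W.card := card_union_le _ _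
      _ ≤ r + 1 + W.card := Nat.add_le_add_right hPcard _
  by_contra hneg
  have h5 : 5 ≤ TA.card + TB.card := by omega
  have hWle : W.card ≤ TB.card := by rw [hW]; exact card_image_le
  have hChle : Ch.card ≤ TA.card := by rw [hCh]; exact card_image_le
  obtain ⟨d, hd⟩ : ∃ d, Ch.card + TB.card = d + 1 := ⟨Ch.card + TB.card - 1, by omega⟩
  have hkey := dl_arith c lam hlam r hcr Y.card (vset Y).card d (r + TA.card + 2 * TB.card)
    (by rw [hYcard]; omega) (by rw [hYcard]; omega) (hD Y hYH)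
  have hd2 : 2 ≤ d := by omega
  have e1 : 2 * d ≤ r * d := Nat.mul_le_mul_right d hr
  have e2 : r * 2 ≤ r * d := Nat.mul_le_mul_left r hd2
  have e3 : 3 * r * d = 3 * (r * d) := by ring
  omega

theorem deg_le_legs {V : Type*} [Fintype V] (H : SimpleGraph V) (c lam : ℝ)
    (hlam : 1 < lam) (hD : Dens H c lam) (r : ℕ) (hr : 2 ≤ r) (hcr : lam ^ (3 * r) ≤ c)
    (f : ℕ → V) (hinj : Set.InjOn f (Set.Iic r)) (hadj : ∀ i < r, H.Adj (f i) (f (i + 1))) :
    ∃ x : ℕ → ℕ, ∑ i ∈ range (r + 1), x i ≤ 4 ∧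
      ∀ i ≤ r, (H.neighborSet (f i)).ncard ≤ (legs H f r i).card + 2 + x i := by
  refine ⟨fun i => (dlExtra H f r i).card, dl_count H c lam hlam hD r hr hcr f hinj hadj, ?_⟩
  intro i _
  exact dl_deg H f r i

end Vale.Agent.Lib.P064.RG
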