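import Vale.Agent.KK.RG.Defs

/-!
# The density property follows from the expectation hypothesis

For a set `D` of edges of `H`, the graph `U` with edge set `D` is a subgraph of `H`, and a copy
of `U` in the complete graph is determined by the images of the endpoints of `D`; hence the
number of copies is at most `n ^ |V(D)|`.
-/

namespace Vale.Agent.Lib.P064.RG

open Finset SimpleGraph Vale.Agent.KK Vale.Agent.KK.RG

/-- The graph built from a set of edges of `H` has exactly these edges. -/
theorem h23_edgeSet_fromEdgeSet {n : ℕ} {H : SimpleGraph (Fin n)} (D : Finset (Sym2 (Fin n)))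
    (hD : ∀ e ∈ D, e ∈ H.edgeSet) :
    (SimpleGraph.fromEdgeSet (D : Set (Sym2 (Fin n)))).edgeSet = (D : Set (Sym2 (Fin n))) := by
  rw [SimpleGraph.edgeSet_fromEdgeSet]
  ext e
  constructor
  · intro he
    exact he.1
  · intro he
    refine ⟨he, ?_⟩
    intro hdiag
    exact H.not_isDiag_of_mem_edgeSet (hD e (Finset.mem_coe.1 he)) (by simpa using hdiag)

/-- Both endpoints of an edge of `D` lie in `vset D`. -/
theorem h23_mem_vset {n : ℕ} (D : Finset (Sym2 (Fin n))) {e : Sym2 (Fin n)} (he : e ∈ D)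
    {v : Fin n} (hv : v ∈ e) : v ∈ vset D := by
  unfold vset
  simp only [Finset.mem_filter, Finset.mem_univ, true_and]
  exact ⟨e, he, hv⟩

/-- A graph on `[n]` with edge set `D` has at most `n ^ |V(D)|` copies in the complete graph. -/
theorem h23_copyCount_le {n : ℕ} (D : Finset (Sym2 (Fin n))) (U : SimpleGraph (Fin n))
    (hU : U.edgeSet = (D : Set (Sym2 (Fin n)))) :
    (⊤ : SimpleGraph (Fin n)).copyCount U ≤ n ^ (vset D).card := by
  classical
  rw [copyCount_eq_natCard]
  let Φ : {S : (⊤ : SimpleGraph (Fin n)).Subgraph // Nonempty (U ≃g S.coe)} →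
      ({x : Fin n // x ∈ vset D} → Fin n) :=
    fun S v => ((Classical.choice S.2 v.1 : S.1.verts) : Fin n)
  have hΦ : Function.Injective Φ := by
    rintro ⟨S, hS⟩ ⟨S', hS'⟩ h
    have h1 : ∀ v ∈ vset D, ((Classical.choice hS v : S.verts) : Fin n) =
        ((Classical.choice hS' v : S'.verts) : Fin n) := by
      intro v hv
      exact congrFun h ⟨v, hv⟩
    have h2 : S.edgeSet = S'.edgeSet := by
      rw [edgeSet_eq_image_of_iso (Classical.choice hS),
        edgeSet_eq_image_of_iso (Classical.choice hS'), hU]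
      apply Set.image_congr
      intro e he
      induction e using Sym2.ind with
      | _ a b =>
        have ha : a ∈ vset D := h23_mem_vset D (Finset.mem_coe.1 he) (Sym2.mem_mk_left a b)
        have hb : b ∈ vset D := h23_mem_vset D (Finset.mem_coe.1 he) (Sym2.mem_mk_right a b)
        rw [Sym2.map_mk, Sym2.map_mk, h1 a ha, h1 b hb]
    apply Subtype.ext
    apply Subgraph.ext
    · rw [verts_eq_univ_of_iso (Classical.choice hS), verts_eq_univ_of_iso (Classical.choice hS')]
    · ext a b
      rw [← Subgraph.mem_edgeSet, ← Subgraph.mem_edgeSet, h2]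
  have h3 := Nat.card_le_card_of_injective Φ hΦ
  have h4 : Nat.card ({x : Fin n // x ∈ vset D} → Fin n) = n ^ (vset D).card := by
    rw [Nat.card_eq_fintype_card, Fintype.card_fun, Fintype.card_fin, Fintype.card_coe]
  rw [h4] at h3
  exact h3

theorem dens_of_hyp {n : ℕ} {H : SimpleGraph (Fin n)} {q : ℝ} (hq : 0 ≤ q)
    (h : SubgraphsExpected n H q) : Dens H (n : ℝ) (n * q) := by
  intro D hD
  have hUe : (SimpleGraph.fromEdgeSet (D : Set (Sym2 (Fin n)))).edgeSet =
      (D : Set (Sym2 (Fin n))) := h23_edgeSet_fromEdgeSet D hD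
  have hUH : SimpleGraph.fromEdgeSet (D : Set (Sym2 (Fin n))) ≤ H := by
    intro a b hab
    rw [SimpleGraph.fromEdgeSet_adj] at hab
    exact (SimpleGraph.mem_edgeSet H).1 (hD _ (Finset.mem_coe.1 hab.1))
  have h1 := hyp_spanning h (SimpleGraph.fromEdgeSet (D : Set (Sym2 (Fin n)))) hUH
  have hcard : (SimpleGraph.fromEdgeSet (D : Set (Sym2 (Fin n)))).edgeSet.ncard = D.card := by
    rw [hUe, Set.ncard_coe_finset]
  rw [hcard] at h1
  have h2 : ((⊤ : SimpleGraph (Fin n)).copyCount
      (SimpleGraph.fromEdgeSet (D : Set (Sym2 (Fin n)))) : ℝ) ≤ (n : ℝ) ^ (vset D).card := by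
    exact_mod_cast h23_copyCount_le D _ hUe
  have h3 : (1 : ℝ) ≤ (n : ℝ) ^ (vset D).card * q ^ D.card :=
    le_trans h1 (mul_le_mul_of_nonneg_right h2 (pow_nonneg hq _))
  have h4 : (0 : ℝ) ≤ (n : ℝ) ^ D.card := by positivity
  calc (n : ℝ) ^ D.card = (n : ℝ) ^ D.card * 1 := (mul_one _).symm
    _ ≤ (n : ℝ) ^ D.card * ((n : ℝ) ^ (vset D).card * q ^ D.card) :=
        mul_le_mul_of_nonneg_left h3 h4
    _ = (n : ℝ) ^ (vset D).card * ((n : ℝ) * q) ^ D.card := by
        rw [mul_pow]
        ring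

end Vale.Agent.Lib.P064.RG
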