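import Vale.Agent.KK.RG.Defs
import Vale.Agent.KK.FH.Freq

/-!
# The factorials of the numbers of legs along a path

The caterpillar made of a path `f 0, ..., f r` of `H` and the legs hanging from it is a
sub-parent-function of `H`; the frequency bound for such patterns bounds the product of the
factorials of the numbers of legs.
-/

namespace Vale.Agent.Lib.P064.RG

open Finset SimpleGraph Vale.Agent.KK Vale.Agent.KK.RG

section legsfact

variable {n : ℕ} {H : SimpleGraph (Fin n)} {f : ℕ → Fin n} {r : ℕ}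

theorem lf_legs_mem {i : ℕ} {u : Fin n} :
    u ∈ legs H f r i ↔ (∀ j ≤ r, u ≠ f j) ∧ H.Adj (f i) u ∧ ∀ j < i, ¬ H.Adj (f j) u := by
  unfold legs
  simp only [mem_filter, mem_univ, true_and]

theorem lf_legs_unique {i i' : ℕ} {u : Fin n} (h : u ∈ legs H f r i) (h' : u ∈ legs H f r i') :
    i = i' := by
  rw [lf_legs_mem] at h h'
  rcases lt_trichotomy i i' with hlt | heq | hgt
  · exact absurd h.2.1 (h'.2.2 i hlt)
  · exact heq
  · exact absurd h'.2.1 (h.2.2 i' hgt)

open Classical in
/-- The parent function of the caterpillar. -/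
noncomputable def lfP (H : SimpleGraph (Fin n)) (f : ℕ → Fin n) (r : ℕ) (x : Fin n) :
    Option (Fin n) :=
  if h : ∃ i, i < r ∧ f i = x then some (f (h.choose + 1))
  else if h2 : ∃ i, i ≤ r ∧ x ∈ legs H f r i then some (f h2.choose) else none

open Classical in
/-- The depth function of the caterpillar. -/
noncomputable def lfD (H : SimpleGraph (Fin n)) (f : ℕ → Fin n) (r : ℕ) (x : Fin n) : ℕ :=
  if h : ∃ i, i ≤ r ∧ f i = x then r - h.choose
  else if h2 : ∃ i, i ≤ r ∧ x ∈ legs H f r i then r - h2.choose + 1 else 0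

theorem lfP_path (hinj : Set.InjOn f (Set.Iic r)) {i : ℕ} (hi : i < r) :
    lfP H f r (f i) = some (f (i + 1)) := by
  have h : ∃ i', i' < r ∧ f i' = f i := ⟨i, hi, rfl⟩
  unfold lfP
  rw [dif_pos h]
  have hs := h.choose_spec
  have e : h.choose = i := hinj (Set.mem_Iic.mpr hs.1.le) (Set.mem_Iic.mpr hi.le) hs.2
  rw [e]

theorem lfP_leg {i : ℕ} (hi : i ≤ r) {u : Fin n} (hu : u ∈ legs H f r i) :
    lfP H f r u = some (f i) := by
  have hu' := lf_legs_mem.mp hu
  have h1 : ¬ ∃ i', i' < r ∧ f i' = u := by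
    rintro ⟨i', hi', e⟩
    exact hu'.1 i' hi'.le e.symm
  have h2 : ∃ i', i' ≤ r ∧ u ∈ legs H f r i' := ⟨i, hi, hu⟩
  unfold lfP
  rw [dif_neg h1, dif_pos h2]
  have e := lf_legs_unique h2.choose_spec.2 hu
  rw [e]

theorem lfP_some {x y : Fin n} (hxy : lfP H f r x = some y) :
    (∃ i, i < r ∧ x = f i ∧ y = f (i + 1)) ∨ (∃ i, i ≤ r ∧ x ∈ legs H f r i ∧ y = f i) := by
  unfold lfP at hxy
  by_cases h : ∃ i, i < r ∧ f i = x
  · rw [dif_pos h] at hxy
    left
    exact ⟨h.choose, h.choose_spec.1, h.choose_spec.2.symm, (Option.some.inj hxy).symm⟩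
  · rw [dif_neg h] at hxy
    by_cases h2 : ∃ i, i ≤ r ∧ x ∈ legs H f r i
    · rw [dif_pos h2] at hxy
      right
      exact ⟨h2.choose, h2.choose_spec.1, h2.choose_spec.2, (Option.some.inj hxy).symm⟩
    · rw [dif_neg h2] at hxy
      exact absurd hxy (by simp)

theorem lfP_last (hinj : Set.InjOn f (Set.Iic r)) : lfP H f r (f r) = none := by
  by_contra hne
  obtain ⟨y, hy⟩ := Option.ne_none_iff_exists'.mp hne
  rcases lfP_some hy with ⟨i, hi, e, -⟩ | ⟨i, -, hu, -⟩
  · have e2 := hinj (Set.mem_Iic.mpr le_rfl) (Set.mem_Iic.mpr hi.le) e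
    omega
  · exact (lf_legs_mem.mp hu).1 r le_rfl rfl

theorem lfD_path (hinj : Set.InjOn f (Set.Iic r)) {i : ℕ} (hi : i ≤ r) :
    lfD H f r (f i) = r - i := by
  have h : ∃ i', i' ≤ r ∧ f i' = f i := ⟨i, hi, rfl⟩
  unfold lfD
  rw [dif_pos h]
  have hs := h.choose_spec
  have e : h.choose = i := hinj (Set.mem_Iic.mpr hs.1) (Set.mem_Iic.mpr hi) hs.2
  rw [e]

theorem lfD_leg {i : ℕ} (hi : i ≤ r) {u : Fin n} (hu : u ∈ legs H f r i) :
    lfD H f r u = r - i + 1 := by
  have hu' := lf_legs_mem.mp hu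
  have h1 : ¬ ∃ i', i' ≤ r ∧ f i' = u := by
    rintro ⟨i', hi', e⟩
    exact hu'.1 i' hi' e.symm
  have h2 : ∃ i', i' ≤ r ∧ u ∈ legs H f r i' := ⟨i, hi, hu⟩
  unfold lfD
  rw [dif_neg h1, dif_pos h2]
  have e := lf_legs_unique h2.choose_spec.2 hu
  rw [e]

open Classical in
theorem lf_nonroots (hinj : Set.InjOn f (Set.Iic r)) :
    (univ.filter (fun x => lfP H f r x ≠ none)).card
      = r + ∑ i ∈ range (r + 1), (legs H f r i).card := by
  have hset : univ.filter (fun x => lfP H f r x ≠ none)
      = (range r).image f ∪ (range (r + 1)).biUnion (fun i => legs H f r i) := by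
    ext x
    simp only [mem_filter, mem_univ, true_and, mem_union, mem_image, mem_range, mem_biUnion]
    constructor
    · intro hx
      obtain ⟨y, hy⟩ := Option.ne_none_iff_exists'.mp hx
      rcases lfP_some hy with ⟨i, hi, e, -⟩ | ⟨i, hi, hu, -⟩
      · exact Or.inl ⟨i, hi, e.symm⟩
      · exact Or.inr ⟨i, Nat.lt_succ_of_le hi, hu⟩
    · rintro (⟨i, hi, rfl⟩ | ⟨i, hi, hu⟩)
      · rw [lfP_path hinj hi]
        simp
      · rw [lfP_leg (Nat.le_of_lt_succ hi) hu]
        simp
  rw [hset, card_union_of_disjoint, card_image_of_injOn, card_range, card_biUnion]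
  · intro i _ i' _ hne
    rw [Function.onFun, Finset.disjoint_left]
    intro u hu hu'
    exact hne (lf_legs_unique hu hu')
  · intro a ha b hb hab
    rw [coe_range, Set.mem_Iio] at ha hb
    exact hinj (Set.mem_Iic.mpr ha.le) (Set.mem_Iic.mpr hb.le) hab
  · rw [Finset.disjoint_left]
    intro x hx hx'
    rw [mem_image] at hx
    rw [mem_biUnion] at hx'
    obtain ⟨i, hi, rfl⟩ := hx
    obtain ⟨i', -, hu⟩ := hx'
    rw [mem_range] at hi
    exact (lf_legs_mem.mp hu).1 i hi.le rfl

open Classical in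
theorem lf_roots (hr : 1 ≤ r) (hinj : Set.InjOn f (Set.Iic r)) :
    (univ.filter (fun y => lfP H f r y = none ∧ ∃ x, lfP H f r x = some y)).card = 1 := by
  have hset : univ.filter (fun y => lfP H f r y = none ∧ ∃ x, lfP H f r x = some y)
      = {f r} := by
    ext y
    simp only [mem_filter, mem_univ, true_and, mem_singleton]
    constructor
    · rintro ⟨hy, x, hx⟩
      rcases lfP_some hx with ⟨i, hi, -, rfl⟩ | ⟨i, hi, -, rfl⟩
      · by_cases hi2 : i + 1 < r
        · rw [lfP_path hinj hi2] at hy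
          exact absurd hy (by simp)
        · have e : i + 1 = r := by omega
          rw [e]
      · by_cases hi2 : i < r
        · rw [lfP_path hinj hi2] at hy
          exact absurd hy (by simp)
        · have e : i = r := by omega
          rw [e]
    · rintro rfl
      refine ⟨lfP_last hinj, f (r - 1), ?_⟩
      have h1 := lfP_path (H := H) hinj (show r - 1 < r by omega)
      have e : r - 1 + 1 = r := by omega
      rw [e] at h1
      exact h1
  rw [hset, card_singleton]

end legsfact

theorem legs_factorial_le {n : ℕ} {H : SimpleGraph (Fin n)} {q : ℝ} (hq : 0 ≤ q)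
    (h : SubgraphsExpected n H q) (r : ℕ) (hr : 1 ≤ r) (f : ℕ → Fin n)
    (hinj : Set.InjOn f (Set.Iic r)) (hadj : ∀ i < r, H.Adj (f i) (f (i + 1))) :
    (∏ i ∈ range (r + 1), ((legs H f r i).card.factorial : ℝ)) ≤
      2 * Real.exp 1 * n *
        (4 * Real.exp 1 * n * q) ^ (r + ∑ i ∈ range (r + 1), (legs H f r i).card) := by
  classical
  have hd : ∀ x y, lfP H f r x = some y → lfD H f r x = lfD H f r y + 1 := by
    intro x y hxy
    rcases lfP_some hxy with ⟨i, hi, rfl, rfl⟩ | ⟨i, hi, hu, rfl⟩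
    · rw [lfD_path hinj hi.le, lfD_path hinj (show i + 1 ≤ r by omega)]
      omega
    · rw [lfD_leg hi hu, lfD_path hinj hi]
  have hp : ∀ x y, lfP H f r x = some y → H.Adj x y := by
    intro x y hxy
    rcases lfP_some hxy with ⟨i, hi, rfl, rfl⟩ | ⟨i, hi, hu, rfl⟩
    · exact hadj i hi
    · exact ((lf_legs_mem.mp hu).2.1).symm
  have hM1 : 1 ≤ r + ∑ i ∈ range (r + 1), (legs H f r i).card := by omega
  have key := freq_core hq h (lfP H f r) (lfD H f r) hd hp
    (r + ∑ i ∈ range (r + 1), (legs H f r i).card) 1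
    (by convert lf_nonroots (H := H) hinj) (by convert lf_roots (H := H) hr hinj) hM1 le_rfl
  have hsub : ∏ i ∈ range (r + 1), (legs H f r i).card.factorial
      ≤ ∏ y, (univ.filter (fun x => lfP H f r x = some y)).card.factorial := by
    have h1 : ∏ i ∈ range (r + 1), (legs H f r i).card.factorial
        ≤ ∏ i ∈ range (r + 1),
          (univ.filter (fun x => lfP H f r x = some (f i))).card.factorial := by
      refine Finset.prod_le_prod' (fun i hi => Nat.factorial_le (card_le_card ?_))
      intro u hu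
      rw [mem_filter]
      exact ⟨mem_univ _, lfP_leg (Nat.le_of_lt_succ (mem_range.mp hi)) hu⟩
    have hinj2 : Set.InjOn f (range (r + 1) : Finset ℕ) := by
      intro a ha b hb hab
      rw [coe_range, Set.mem_Iio] at ha hb
      exact hinj (Set.mem_Iic.mpr (Nat.le_of_lt_succ ha)) (Set.mem_Iic.mpr (Nat.le_of_lt_succ hb))
        hab
    have h2 : ∏ i ∈ range (r + 1),
          (univ.filter (fun x => lfP H f r x = some (f i))).card.factorial
        = ∏ y ∈ (range (r + 1)).image f,
          (univ.filter (fun x => lfP H f r x = some y)).card.factorial := by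
      rw [Finset.prod_image hinj2]
    have h3 : ∏ y ∈ (range (r + 1)).image f,
          (univ.filter (fun x => lfP H f r x = some y)).card.factorial
        ≤ ∏ y, (univ.filter (fun x => lfP H f r x = some y)).card.factorial :=
      Finset.prod_le_prod_of_subset_of_one_le' (subset_univ _)
        (fun y _ _ => Nat.factorial_pos _)
    exact h1.trans (h2.le.trans h3)
  have hcast : (∏ i ∈ range (r + 1), ((legs H f r i).card.factorial : ℝ))
      ≤ ((∏ y, (univ.filter (fun x => lfP H f r x = some y)).card.factorial : ℕ) : ℝ) := by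
    have := (Nat.cast_le (α := ℝ)).mpr hsub
    rw [Nat.cast_prod] at this
    convert this using 3
  refine hcast.trans ?_
  refine (le_of_eq_of_le ?_ key).trans (le_of_eq ?_)
  · congr 1
  · rw [Nat.cast_one, div_one, pow_one]
    ring

end Vale.Agent.Lib.P064.RG
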