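import Vale.Agent.KK.RG.Defs

/-!
# Light paths leaving a breadth-first ball

* `card_of_mem_pathSets`: a member of `pathSets G a r` has `r` edges, all of them edges of `G`.
* `exists_light_path`: if a vertex outside the ball of radius `r` around `A` is reachable from
  `a ∈ A` inside the edge set `L'`, then `L'` contains the edge set of a path with `r` edges
  starting in `A`.
-/

namespace Vale.Agent.Lib.P064.RG

open Finset SimpleGraph Vale.Agent.KK Vale.Agent.KK.RG

theorem card_of_mem_pathSets {V : Type*} [Fintype V] (G : SimpleGraph V) (a : V) (r : ℕ)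
    (π : Finset (Sym2 V)) (hπ : π ∈ pathSets G a r) :
    π.card = r ∧ ∀ e ∈ π, e ∈ G.edgeSet := by
  classical
  unfold pathSets at hπ
  rw [Finset.mem_filter] at hπ
  obtain ⟨-, b, p, hp, hlen, rfl⟩ := hπ
  refine ⟨?_, ?_⟩
  · rw [List.toFinset_card_of_nodup hp.isTrail.edges_nodup, Walk.length_edges, hlen]
  · intro e he
    rw [List.mem_toFinset] at he
    exact Walk.edges_subset_edgeSet p he

/-- A walk of `G` from a vertex of the ball to a vertex outside the ball is long. -/
theorem lp_walk_length {V : Type*} [Fintype V] (G : SimpleGraph V) (A : Finset V) (r : ℕ)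
    (B : Bfs G A r) : ∀ (u w : V) (p : G.Walk u w), u ∈ B.Bd → w ∉ B.Bd →
      r ≤ B.dep u + p.length := by
  intro u w p
  induction p with
  | nil => intro hu hw; exact absurd hu hw
  | @cons u u' w h p' ih =>
    intro hu hw
    rw [Walk.length_cons]
    by_cases hu' : u' ∈ B.Bd
    · have h1 := ih hu' hw
      have h2 := B.dep_adj u hu u' hu' h
      omega
    · have h3 : ¬ (B.dep u + 1 < r) := fun hlt => hu' (B.closed u hu u' h hlt)
      omega

theorem exists_light_path {V : Type*} [Fintype V] (G : SimpleGraph V) (A : Finset V) (r : ℕ)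
    (hr : 1 ≤ r) (B : Bfs G A r) (L' : Finset (Sym2 V)) (hL' : ∀ e ∈ L', e ∈ G.edgeSet)
    (a : V) (ha : a ∈ A) (v : V)
    (hv : (SimpleGraph.fromEdgeSet (L' : Set (Sym2 V))).Reachable a v) (hvB : v ∉ B.Bd) :
    ∃ a' ∈ A, ∃ π ∈ pathSets G a' r, π ⊆ L' := by
  classical
  have _hr := hr
  have hle : SimpleGraph.fromEdgeSet (L' : Set (Sym2 V)) ≤ G := by
    intro x y hxy
    rw [fromEdgeSet_adj] at hxy
    exact (SimpleGraph.mem_edgeSet G).mp (hL' _ (Finset.mem_coe.mp hxy.1))
  obtain ⟨q⟩ := hv
  set q' := q.toPath with hq'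
  set p : G.Walk a v := q'.1.mapLe hle with hp
  have hpath : p.IsPath := (Walk.isPath_mapLe hle).mpr q'.2
  have haB : a ∈ B.Bd := B.subA ha
  have hdep : B.dep a = 0 := (B.dep_zero a haB).mpr ha
  have hlen : r ≤ p.length := by
    have := lp_walk_length G A r B a v p haB hvB
    omega
  have hedges : ∀ e ∈ p.edges, e ∈ L' := by
    intro e he
    rw [hp, Walk.edges_mapLe_eq_edges] at he
    have h1 := Walk.edges_subset_edgeSet q'.1 he
    rw [edgeSet_fromEdgeSet] at h1
    exact Finset.mem_coe.mp h1.1
  refine ⟨a, ha, (p.take r).edges.toFinset, ?_, ?_⟩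
  · unfold pathSets
    rw [Finset.mem_filter]
    refine ⟨Finset.mem_univ _, p.getVert r, p.take r, hpath.take r, ?_, ?_⟩
    · rw [Walk.take_length]
      exact min_eq_left hlen
    · congr
  · intro e he
    rw [List.mem_toFinset, Walk.edges_take] at he
    exact hedges e (List.mem_of_mem_take he)

end Vale.Agent.Lib.P064.RG
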