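import Vale.Agent.KK.RG.Defs

/-!
# Counting paths through a random walk weight

A walk of length `r` gets the weight `1 / (d 0 * ... * d (r - 1))` where `d i` is the number of
neighbours of its `i`-th vertex.  The weights of all walks of length `r` from a fixed vertex add
up to at most one, so a uniform upper bound on the degree products along the paths bounds the
number of paths.
-/

namespace Vale.Agent.Lib.P064.RG

open Finset SimpleGraph Vale.Agent.KK Vale.Agent.KK.RG

/-- The random walk weight of the first `r` steps of a walk. -/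
noncomputable def h12wt {V : Type*} (G : SimpleGraph V) {a b : V} (p : G.Walk a b) (r : ℕ) : ℝ :=
  (∏ i ∈ range r, ((G.neighborSet (p.getVert i)).ncard : ℝ))⁻¹

theorem h12wt_nonneg {V : Type*} (G : SimpleGraph V) {a b : V} (p : G.Walk a b) (r : ℕ) :
    0 ≤ h12wt G p r := by
  unfold h12wt
  exact inv_nonneg.mpr (prod_nonneg (fun i _ => Nat.cast_nonneg _))

theorem h12wt_cons {V : Type*} (G : SimpleGraph V) {a c b : V} (h : G.Adj a c)
    (p : G.Walk c b) (r : ℕ) :
    h12wt G (Walk.cons h p) (r + 1) = ((G.neighborSet a).ncard : ℝ)⁻¹ * h12wt G p r := by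
  unfold h12wt
  rw [prod_range_succ', mul_inv, mul_comm]
  simp [Walk.getVert_cons_succ]

theorem h12_total {V : Type*} [Fintype V] [DecidableEq V] (G : SimpleGraph V)
    [DecidableRel G.Adj] (r : ℕ) (a : V) :
    ∑ b : V, ∑ p ∈ G.finsetWalkLength r a b, h12wt G p r ≤ 1 := by
  induction r generalizing a with
  | zero =>
    rw [Finset.sum_eq_single a]
    · have hsub : G.finsetWalkLength 0 a a ⊆ {Walk.nil} := by
        intro p hp
        rw [mem_finsetWalkLength_iff] at hp
        rw [mem_singleton]
        exact Walk.eq_nil_iff_nil.mpr (Walk.length_eq_zero_iff.mp hp)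
      calc ∑ p ∈ G.finsetWalkLength 0 a a, h12wt G p 0
          ≤ ∑ p ∈ ({Walk.nil} : Finset (G.Walk a a)), h12wt G p 0 :=
            sum_le_sum_of_subset_of_nonneg hsub (fun p _ _ => h12wt_nonneg G p 0)
        _ = 1 := by simp [h12wt]
    · intro b _ hb
      apply sum_eq_zero
      intro p hp
      rw [mem_finsetWalkLength_iff] at hp
      exact absurd (Walk.eq_of_length_eq_zero hp).symm hb
    · intro h
      exact absurd (mem_univ a) h
  | succ r ih =>
    have hstep : ∀ b : V, ∑ p ∈ G.finsetWalkLength (r + 1) a b, h12wt G p (r + 1)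
        = ∑ w : G.neighborSet a, ((G.neighborSet a).ncard : ℝ)⁻¹ *
            ∑ p ∈ G.finsetWalkLength r w b, h12wt G p r := by
      intro b
      rw [finsetWalkLength, sum_biUnion]
      · apply sum_congr rfl
        intro w _
        rw [sum_map, mul_sum]
        apply sum_congr rfl
        intro p _
        exact h12wt_cons G w.property p r
      · intro w _ w' _ hne
        rw [Function.onFun, Finset.disjoint_left]
        intro p hp hp'
        rw [Finset.mem_map] at hp hp'
        obtain ⟨q, _, rfl⟩ := hp
        obtain ⟨q', _, hq'⟩ := hp'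
        apply hne
        have hw : G.Adj a w := w.property
        have hw' : G.Adj a w' := w'.property
        have h1 : (Walk.cons hw' q').getVert (0 + 1) = (Walk.cons hw q).getVert (0 + 1) :=
          congrArg (fun p => p.getVert 1) hq'
        rw [Walk.getVert_cons_succ, Walk.getVert_cons_succ, Walk.getVert_zero,
          Walk.getVert_zero] at h1
        exact Subtype.ext h1.symm
    calc ∑ b : V, ∑ p ∈ G.finsetWalkLength (r + 1) a b, h12wt G p (r + 1)
        = ∑ b : V, ∑ w : G.neighborSet a, ((G.neighborSet a).ncard : ℝ)⁻¹ *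
            ∑ p ∈ G.finsetWalkLength r w b, h12wt G p r :=
          sum_congr rfl (fun b _ => hstep b)
      _ = ∑ w : G.neighborSet a, ((G.neighborSet a).ncard : ℝ)⁻¹ *
            ∑ b : V, ∑ p ∈ G.finsetWalkLength r w b, h12wt G p r := by
          rw [sum_comm]
          apply sum_congr rfl
          intro w _
          rw [mul_sum]
      _ ≤ ∑ _w : G.neighborSet a, ((G.neighborSet a).ncard : ℝ)⁻¹ * 1 := by
          apply sum_le_sum
          intro w _
          exact mul_le_mul_of_nonneg_left (ih w) (inv_nonneg.mpr (Nat.cast_nonneg _))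
      _ ≤ 1 := by
          rw [sum_const, card_univ, mul_one, nsmul_eq_mul]
          have hc : Fintype.card (G.neighborSet a) = (G.neighborSet a).ncard := by
            rw [← Nat.card_eq_fintype_card]
            rfl
          rw [hc]
          by_cases h0 : ((G.neighborSet a).ncard : ℝ) = 0
          · rw [h0]
            simp
          · rw [mul_inv_cancel₀ h0]

theorem card_pathSets_le {V : Type*} [Fintype V] (G : SimpleGraph V) (a : V) (r : ℕ) (Bnd : ℝ)
    (hB0 : 0 ≤ Bnd)
    (hB : ∀ (b : V) (p : G.Walk a b), p.IsPath → p.length = r →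
      ∏ i ∈ range r, ((G.neighborSet (p.getVert i)).ncard : ℝ) ≤ Bnd) :
    ((pathSets G a r).card : ℝ) ≤ Bnd := by
  classical
  set T : Finset (Σ b : V, G.Walk a b) :=
    (univ : Finset V).sigma (fun b => (G.finsetWalkLength r a b).filter (fun p => p.IsPath))
    with hT
  have himg : pathSets G a r ⊆ T.image (fun x => x.2.edges.toFinset) := by
    intro π hπ
    unfold pathSets at hπ
    rw [mem_filter] at hπ
    obtain ⟨b, p, hp, hlen, rfl⟩ := hπ.2
    rw [mem_image]
    refine ⟨⟨b, p⟩, ?_, ?_⟩
    · rw [hT, mem_sigma]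
      refine ⟨mem_univ b, ?_⟩
      rw [mem_filter, mem_finsetWalkLength_iff]
      exact ⟨hlen, hp⟩
    · congr
  have hcard : ((pathSets G a r).card : ℝ) ≤ (T.card : ℝ) := by
    exact_mod_cast (card_le_card himg).trans card_image_le
  have h1 : ∀ x ∈ T, (1 : ℝ) ≤ Bnd * h12wt G x.2 r := by
    rintro ⟨b, p⟩ hx
    rw [hT, mem_sigma, mem_filter, mem_finsetWalkLength_iff] at hx
    obtain ⟨_, hlen, hp⟩ := hx
    dsimp only at hlen hp
    have hP : 0 < ∏ i ∈ range r, ((G.neighborSet (p.getVert i)).ncard : ℝ) := by
      apply prod_pos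
      intro i hi
      rw [mem_range] at hi
      have hadj : G.Adj (p.getVert i) (p.getVert (i + 1)) :=
        p.adj_getVert_succ (by omega)
      have hne : (G.neighborSet (p.getVert i)).Nonempty := ⟨_, hadj⟩
      have := (Set.ncard_pos (Set.toFinite _)).mpr hne
      exact_mod_cast this
    show (1 : ℝ) ≤ Bnd * h12wt G p r
    unfold h12wt
    rw [le_mul_inv_iff₀ hP, one_mul]
    exact hB b p hp hlen
  have hsum : ∑ x ∈ T, h12wt G x.2 r ≤ 1 := by
    rw [hT, sum_sigma]
    refine le_trans (sum_le_sum ?_) (h12_total G r a)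
    intro b _
    exact sum_le_sum_of_subset_of_nonneg (filter_subset _ _) (fun p _ _ => h12wt_nonneg G p r)
  calc ((pathSets G a r).card : ℝ) ≤ (T.card : ℝ) := hcard
    _ = ∑ _x ∈ T, (1 : ℝ) := by simp
    _ ≤ ∑ x ∈ T, Bnd * h12wt G x.2 r := sum_le_sum h1
    _ = Bnd * ∑ x ∈ T, h12wt G x.2 r := by rw [mul_sum]
    _ ≤ Bnd * 1 := mul_le_mul_of_nonneg_left hsum hB0
    _ = Bnd := mul_one _

end Vale.Agent.Lib.P064.RG
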