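import Vale.Agent.KK.RG.Defs

/-!
# The product of the degrees along a path: the arithmetic core

Pure arithmetic behind `path_deg_prod_le`: if the degrees `deg i` are at most
`L i + 2 + x i` with the `x i` summing to at most `4`, and the product of the factorials
of the `L i` is bounded as in `legs_factorial_le`, then the product of the degrees is
at most `N * Kp lam ^ (r + 1)`.
-/

namespace Vale.Agent.Lib.P064.RG

open Finset SimpleGraph Vale.Agent.KK Vale.Agent.KK.RG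

theorem h14_add_two_le (d : ℕ) : d + 2 ≤ 2 * 2 ^ d := by
  induction d with
  | zero => norm_num
  | succ k ih => rw [pow_succ]; omega

theorem h14_add_le_mul_pow (L x : ℕ) : L + 2 + x ≤ (L + 2) * 2 ^ x := by
  have h1 : x < 2 ^ x := Nat.lt_two_pow_self
  calc L + 2 + x ≤ (L + 2) * (x + 1) := by nlinarith
    _ ≤ (L + 2) * 2 ^ x := Nat.mul_le_mul_left _ h1

theorem h14_elem (a : ℝ) (ha : 0 ≤ a) (d : ℕ) :
    ((d : ℝ) + 2) * a ^ d ≤ 2 * Real.exp (2 * a) * (d.factorial : ℝ) := by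
  have h1 : ((d : ℝ) + 2) ≤ 2 * 2 ^ d := by exact_mod_cast h14_add_two_le d
  have h2 : (2 * a) ^ d / (d.factorial : ℝ) ≤ Real.exp (2 * a) :=
    Real.pow_div_factorial_le_exp (x := 2 * a) (by positivity) d
  have hf : (0 : ℝ) < (d.factorial : ℝ) := by exact_mod_cast Nat.factorial_pos d
  rw [div_le_iff₀ hf] at h2
  calc ((d : ℝ) + 2) * a ^ d ≤ (2 * 2 ^ d) * a ^ d := by
        apply mul_le_mul_of_nonneg_right h1; positivity
    _ = 2 * (2 * a) ^ d := by rw [mul_pow]; ring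
    _ ≤ 2 * (Real.exp (2 * a) * (d.factorial : ℝ)) := by linarith
    _ = 2 * Real.exp (2 * a) * (d.factorial : ℝ) := by ring

theorem h14_nat_step (r : ℕ) (deg L x : ℕ → ℕ)
    (hxs : ∑ i ∈ range (r + 1), x i ≤ 4)
    (hx : ∀ i ≤ r, deg i ≤ L i + 2 + x i) :
    ∏ i ∈ range r, deg i ≤ 16 * ∏ i ∈ range (r + 1), (L i + 2) := by
  have h1 : ∏ i ∈ range r, deg i ≤ ∏ i ∈ range r, ((L i + 2) * 2 ^ x i) := by
    apply Finset.prod_le_prod
    · intro i _; exact Nat.zero_le _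
    · intro i hi
      rw [Finset.mem_range] at hi
      exact (hx i hi.le).trans (h14_add_le_mul_pow (L i) (x i))
  have h2 : ∏ i ∈ range r, ((L i + 2) * 2 ^ x i) ≤
      ∏ i ∈ range (r + 1), ((L i + 2) * 2 ^ x i) := by
    rw [Finset.prod_range_succ]
    apply Nat.le_mul_of_pos_right
    positivity
  have h3 : ∏ i ∈ range (r + 1), ((L i + 2) * 2 ^ x i) =
      (∏ i ∈ range (r + 1), (L i + 2)) * 2 ^ (∑ i ∈ range (r + 1), x i) := by
    rw [Finset.prod_mul_distrib, Finset.prod_pow_eq_pow_sum]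
  have h4 : 2 ^ (∑ i ∈ range (r + 1), x i) ≤ 2 ^ 4 :=
    Nat.pow_le_pow_right (by norm_num) hxs
  calc ∏ i ∈ range r, deg i ≤ ∏ i ∈ range (r + 1), ((L i + 2) * 2 ^ x i) := h1.trans h2
    _ = (∏ i ∈ range (r + 1), (L i + 2)) * 2 ^ (∑ i ∈ range (r + 1), x i) := h3
    _ ≤ (∏ i ∈ range (r + 1), (L i + 2)) * 2 ^ 4 := Nat.mul_le_mul_left _ h4
    _ = 16 * ∏ i ∈ range (r + 1), (L i + 2) := by ring

theorem h14_real_step (a : ℝ) (ha : 0 ≤ a) (m : ℕ) (L : ℕ → ℕ) :
    (∏ i ∈ range m, ((L i : ℝ) + 2)) * a ^ (∑ i ∈ range m, L i) ≤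
      (2 * Real.exp (2 * a)) ^ m * ∏ i ∈ range m, ((L i).factorial : ℝ) := by
  have h1 : ∏ i ∈ range m, (((L i : ℝ) + 2) * a ^ L i) ≤
      ∏ i ∈ range m, (2 * Real.exp (2 * a) * ((L i).factorial : ℝ)) := by
    apply Finset.prod_le_prod
    · intro i _; positivity
    · intro i _; exact h14_elem a ha (L i)
  rw [Finset.prod_mul_distrib, Finset.prod_pow_eq_pow_sum, Finset.prod_mul_distrib,
    Finset.prod_const, Finset.card_range] at h1
  exact h1

theorem h14_const_le (lam : ℝ) (hlam : 2 ≤ lam) :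
    32 * Real.exp 1 * (4 * Real.exp 1 * lam) * (2 * Real.exp (2 * (4 * Real.exp 1 * lam))) ≤
      Kp lam := by
  have he1 : Real.exp 1 < 2.7182818286 := Real.exp_one_lt_d9
  have he0 : (0 : ℝ) < Real.exp 1 := Real.exp_pos 1
  have h1 : Real.exp (2 * (4 * Real.exp 1 * lam)) ≤ Real.exp (22 * lam) := by
    apply Real.exp_le_exp.mpr
    nlinarith
  have h2 : 256 * (Real.exp 1 * Real.exp 1) ≤ 1900 := by nlinarith
  have h3 : (0 : ℝ) < Real.exp (2 * (4 * Real.exp 1 * lam)) := Real.exp_pos _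
  unfold Kp
  calc 32 * Real.exp 1 * (4 * Real.exp 1 * lam) * (2 * Real.exp (2 * (4 * Real.exp 1 * lam)))
      = (256 * (Real.exp 1 * Real.exp 1)) * lam * Real.exp (2 * (4 * Real.exp 1 * lam)) := by
        ring
    _ ≤ 1900 * lam * Real.exp (2 * (4 * Real.exp 1 * lam)) := by
        apply mul_le_mul_of_nonneg_right _ h3.le
        apply mul_le_mul_of_nonneg_right h2
        linarith
    _ ≤ 1900 * lam * Real.exp (22 * lam) := by
        apply mul_le_mul_of_nonneg_left h1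
        nlinarith

theorem h14_core (N lam : ℝ) (hN : 0 ≤ N) (hlam : 2 ≤ lam) (r : ℕ) (deg L x : ℕ → ℕ)
    (hxs : ∑ i ∈ range (r + 1), x i ≤ 4)
    (hx : ∀ i ≤ r, deg i ≤ L i + 2 + x i)
    (hfac : (∏ i ∈ range (r + 1), ((L i).factorial : ℝ)) ≤
      2 * Real.exp 1 * N * (4 * Real.exp 1 * lam) ^ (r + ∑ i ∈ range (r + 1), L i)) :
    ∏ i ∈ range r, (deg i : ℝ) ≤ N * Kp lam ^ (r + 1) := by
  have he0 : (0 : ℝ) < Real.exp 1 := Real.exp_pos 1
  have he2 : (2 : ℝ) < Real.exp 1 := by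
    have := Real.exp_one_gt_d9
    linarith
  set a : ℝ := 4 * Real.exp 1 * lam with ha_def
  have ha1 : 1 ≤ a := by rw [ha_def]; nlinarith
  have ha0 : 0 < a := by linarith
  set E : ℝ := 2 * Real.exp (2 * a) with hE_def
  have hE0 : 0 < E := by rw [hE_def]; positivity
  set S : ℕ := ∑ i ∈ range (r + 1), L i with hS_def
  set P : ℝ := ∏ i ∈ range (r + 1), ((L i : ℝ) + 2) with hP_def
  have hP0 : 0 ≤ P := by
    rw [hP_def]
    apply Finset.prod_nonneg
    intro i _; positivity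
  -- the natural-number step
  have hnat := h14_nat_step r deg L x hxs hx
  have hnat' : ∏ i ∈ range r, (deg i : ℝ) ≤ 16 * P := by
    have : ((∏ i ∈ range r, deg i : ℕ) : ℝ) ≤ ((16 * ∏ i ∈ range (r + 1), (L i + 2) : ℕ) : ℝ) :=
      by exact_mod_cast hnat
    push_cast at this
    exact this
  -- the real step
  have hreal := h14_real_step a ha0.le (r + 1) L
  have hstep : P * a ^ S ≤ (E ^ (r + 1) * (2 * Real.exp 1 * N * a ^ r)) * a ^ S := by
    calc P * a ^ S ≤ E ^ (r + 1) * ∏ i ∈ range (r + 1), ((L i).factorial : ℝ) := hreal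
      _ ≤ E ^ (r + 1) * (2 * Real.exp 1 * N * a ^ (r + S)) := by
          apply mul_le_mul_of_nonneg_left hfac
          positivity
      _ = (E ^ (r + 1) * (2 * Real.exp 1 * N * a ^ r)) * a ^ S := by
          rw [pow_add]; ring
  have hP : P ≤ E ^ (r + 1) * (2 * Real.exp 1 * N * a ^ r) :=
    le_of_mul_le_mul_right hstep (by positivity)
  -- the constants
  have hc := h14_const_le lam hlam
  rw [← ha_def, ← hE_def] at hc
  have hbase0 : 0 ≤ 32 * Real.exp 1 * a * E := by positivity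
  have hpow : (32 * Real.exp 1 * a * E) ^ (r + 1) ≤ Kp lam ^ (r + 1) :=
    pow_le_pow_left₀ hbase0 hc (r + 1)
  have h32 : 32 * Real.exp 1 ≤ (32 * Real.exp 1) ^ (r + 1) :=
    le_self_pow₀ (by linarith) (Nat.succ_ne_zero r)
  have har : a ^ r ≤ a ^ (r + 1) := pow_le_pow_right₀ ha1 (Nat.le_succ r)
  have hmid : 32 * Real.exp 1 * a ^ r * E ^ (r + 1) ≤ (32 * Real.exp 1 * a * E) ^ (r + 1) := by
    have heq : (32 * Real.exp 1 * a * E) ^ (r + 1) =
        (32 * Real.exp 1) ^ (r + 1) * a ^ (r + 1) * E ^ (r + 1) := by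
      rw [mul_pow (32 * Real.exp 1 * a) E, mul_pow (32 * Real.exp 1) a]
    rw [heq]
    apply mul_le_mul_of_nonneg_right _ (by positivity)
    exact mul_le_mul h32 har (by positivity) (by positivity)
  calc ∏ i ∈ range r, (deg i : ℝ) ≤ 16 * P := hnat'
    _ ≤ 16 * (E ^ (r + 1) * (2 * Real.exp 1 * N * a ^ r)) := by linarith
    _ = N * (32 * Real.exp 1 * a ^ r * E ^ (r + 1)) := by ring
    _ ≤ N * Kp lam ^ (r + 1) := by
        apply mul_le_mul_of_nonneg_left _ hN
        exact hmid.trans hpow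

end Vale.Agent.Lib.P064.RG
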