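import Vale.Agent.KK.RG.Defs
import Vale.Agent.Lib.P064.rg.Dens
import Vale.Agent.Lib.P064.rg.DegLegs
import Vale.Agent.Lib.P064.rg.LegsFact
import Vale.Agent.Lib.P064.rg.PathDegCore

/-!
# The product of the degrees along a path

For a host `H` all of whose subgraphs are expected in `G(n,q)`, with `lam = n q ≥ 2`,
the product of the degrees of the first `r` vertices of a path with `r` edges is at most
`n * Kp lam ^ (r + 1)`, as long as `lam ^ (3 r) ≤ n`.
-/

namespace Vale.Agent.Lib.P064.RG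

open Finset SimpleGraph Vale.Agent.KK Vale.Agent.KK.RG

theorem path_deg_prod_le {n : ℕ} {H : SimpleGraph (Fin n)} {q : ℝ} (hq : 0 ≤ q)
    (h : SubgraphsExpected n H q) (hlam : 2 ≤ (n : ℝ) * q) (r : ℕ) (hr : 2 ≤ r)
    (hcr : ((n : ℝ) * q) ^ (3 * r) ≤ n) (f : ℕ → Fin n)
    (hinj : Set.InjOn f (Set.Iic r)) (hadj : ∀ i < r, H.Adj (f i) (f (i + 1))) :
    ∏ i ∈ range r, ((H.neighborSet (f i)).ncard : ℝ) ≤ n * Kp (n * q) ^ (r + 1) := by
  obtain ⟨x, hxs, hx⟩ := deg_le_legs H (n : ℝ) ((n : ℝ) * q) (by linarith)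
    (dens_of_hyp hq h) r hr hcr f hinj hadj
  have hfac := legs_factorial_le hq h r (by omega) f hinj hadj
  have hmul : 4 * Real.exp 1 * (n : ℝ) * q = 4 * Real.exp 1 * ((n : ℝ) * q) := by ring
  rw [hmul] at hfac
  exact h14_core (n : ℝ) ((n : ℝ) * q) (Nat.cast_nonneg n) hlam r
    (fun i => (H.neighborSet (f i)).ncard) (fun i => (legs H f r i).card) x hxs hx hfac

end Vale.Agent.Lib.P064.RG
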