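import Vale.Agent.KK.RG.Defs

/-!
# Orientable subpatterns

The deficiency form of Hall's theorem for edge sets, the reduction of a pattern to an
orientable subpattern under the density property, and transport of orientability along an
injective vertex map.
-/

namespace Vale.Agent.Lib.P064.RG

open Finset SimpleGraph Vale.Agent.KK Vale.Agent.KK.RG

/-- membership in the endpoint set -/
lemma pat_mem_vset {V : Type*} [Fintype V] (D : Finset (Sym2 V)) (v : V) :
    v ∈ vset D ↔ ∃ e ∈ D, v ∈ e := by
  classical
  unfold vset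
  constructor
  · intro h
    exact (Finset.mem_filter.1 h).2
  · intro h
    exact Finset.mem_filter.2 ⟨mem_univ _, h⟩

theorem exists_orientable_sub {V : Type*} [Fintype V] [DecidableEq V] (D : Finset (Sym2 V))
    (t : ℕ) (h : ∀ Z, Z ⊆ D → Z.card ≤ (vset Z).card + t) :
    ∃ D', D' ⊆ D ∧ (D \ D').card ≤ t ∧ Orientable D' := by
  classical
  -- Hall's theorem with `t` dummy targets
  obtain ⟨ψ, hψinj, hψmem⟩ :=
    (Finset.all_card_le_biUnion_card_iff_exists_injective
      (fun e : {e // e ∈ D} => ((e : Sym2 V).toFinset).disjSum (univ : Finset (Fin t)))).mp (by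
        intro s
        rcases s.eq_empty_or_nonempty with hs | hs
        · rw [hs]
          exact Nat.zero_le _
        · obtain ⟨e0, he0⟩ := hs
          have hZ : s.image Subtype.val ⊆ D := by
            intro e he
            rw [mem_image] at he
            obtain ⟨e', _, rfl⟩ := he
            exact e'.2
          have h1 : (vset (s.image Subtype.val)).disjSum (univ : Finset (Fin t)) ⊆
              s.biUnion (fun e : {e // e ∈ D} =>
                ((e : Sym2 V).toFinset).disjSum (univ : Finset (Fin t))) := by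
            intro x hx
            rw [mem_biUnion]
            rcases x with v | k
            · rw [inl_mem_disjSum, pat_mem_vset] at hx
              obtain ⟨e, he, hv⟩ := hx
              rw [mem_image] at he
              obtain ⟨e', he', rfl⟩ := he
              exact ⟨e', he', inl_mem_disjSum.2 (Sym2.mem_toFinset.2 hv)⟩
            · exact ⟨e0, he0, inr_mem_disjSum.2 (mem_univ k)⟩
          calc s.card = (s.image Subtype.val).card :=
                (Finset.card_image_of_injective _ Subtype.val_injective).symm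
            _ ≤ (vset (s.image Subtype.val)).card + t := h _ hZ
            _ = ((vset (s.image Subtype.val)).disjSum (univ : Finset (Fin t))).card := by
                rw [card_disjSum, card_univ, Fintype.card_fin]
            _ ≤ _ := card_le_card h1)
  have hψ : ∀ e : {e // e ∈ D}, ∀ v, ψ e = Sum.inl v → v ∈ (e : Sym2 V) := by
    intro e v hv
    have hm := hψmem e
    rw [hv, inl_mem_disjSum] at hm
    exact Sym2.mem_toFinset.1 hm
  refine ⟨(D.attach.filter (fun e => (ψ e).isLeft = true)).image Subtype.val, ?_, ?_, ?_⟩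
  · intro e he
    rw [mem_image] at he
    obtain ⟨e', _, rfl⟩ := he
    exact e'.2
  · -- the removed edges inject into the dummy targets
    have hsub : D \ (D.attach.filter (fun e => (ψ e).isLeft = true)).image Subtype.val ⊆
        (D.attach.filter (fun e => (ψ e).isRight = true)).image Subtype.val := by
      intro e he
      rw [mem_sdiff] at he
      rw [mem_image]
      refine ⟨⟨e, he.1⟩, ?_, rfl⟩
      rw [mem_filter]
      refine ⟨mem_attach _ _, ?_⟩
      by_contra hcon
      apply he.2
      rw [mem_image]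
      refine ⟨⟨e, he.1⟩, ?_, rfl⟩
      rw [mem_filter]
      refine ⟨mem_attach _ _, ?_⟩
      rw [Bool.not_eq_true, Sum.isRight_eq_false] at hcon
      exact hcon
    have himg : (D.attach.filter (fun e => (ψ e).isRight = true)).image ψ ⊆
        (univ : Finset (Fin t)).image Sum.inr := by
      intro x hx
      rw [mem_image] at hx
      obtain ⟨e, he, rfl⟩ := hx
      rw [mem_filter] at he
      obtain ⟨k, hk⟩ := Sum.isRight_iff.1 he.2
      rw [mem_image]
      exact ⟨k, mem_univ k, hk.symm⟩
    calc (D \ (D.attach.filter (fun e => (ψ e).isLeft = true)).image Subtype.val).card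
        ≤ ((D.attach.filter (fun e => (ψ e).isRight = true)).image Subtype.val).card :=
          card_le_card hsub
      _ ≤ (D.attach.filter (fun e => (ψ e).isRight = true)).card := card_image_le
      _ = ((D.attach.filter (fun e => (ψ e).isRight = true)).image ψ).card :=
          (card_image_of_injective _ hψinj).symm
      _ ≤ ((univ : Finset (Fin t)).image Sum.inr).card := card_le_card himg
      _ ≤ (univ : Finset (Fin t)).card := card_image_le
      _ = t := by rw [card_univ, Fintype.card_fin]
  · -- the orientation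
    refine ⟨fun e => if he : e ∈ D then Sum.elim id (fun _ => (Quot.out e).1) (ψ ⟨e, he⟩)
      else (Quot.out e).1, ?_, ?_⟩
    · intro e he
      rw [mem_image] at he
      obtain ⟨e', he', rfl⟩ := he
      rw [mem_filter] at he'
      obtain ⟨v, hv⟩ := Sum.isLeft_iff.1 he'.2
      have h2 : (if he : (e' : Sym2 V) ∈ D then
          Sum.elim id (fun _ => (Quot.out (e' : Sym2 V)).1) (ψ ⟨e', he⟩)
          else (Quot.out (e' : Sym2 V)).1) = v := by
        rw [dif_pos e'.2, Subtype.coe_eta, hv]
        rfl
      beta_reduce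
      rw [h2]
      exact hψ e' v hv
    · intro e1 he1 e2 he2 heq
      rw [mem_coe, mem_image] at he1 he2
      obtain ⟨e1', he1', rfl⟩ := he1
      obtain ⟨e2', he2', rfl⟩ := he2
      rw [mem_filter] at he1' he2'
      obtain ⟨v1, hv1⟩ := Sum.isLeft_iff.1 he1'.2
      obtain ⟨v2, hv2⟩ := Sum.isLeft_iff.1 he2'.2
      have h1 : (if he : (e1' : Sym2 V) ∈ D then
          Sum.elim id (fun _ => (Quot.out (e1' : Sym2 V)).1) (ψ ⟨e1', he⟩)
          else (Quot.out (e1' : Sym2 V)).1) = v1 := by
        rw [dif_pos e1'.2, Subtype.coe_eta, hv1]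
        rfl
      have h2 : (if he : (e2' : Sym2 V) ∈ D then
          Sum.elim id (fun _ => (Quot.out (e2' : Sym2 V)).1) (ψ ⟨e2', he⟩)
          else (Quot.out (e2' : Sym2 V)).1) = v2 := by
        rw [dif_pos e2'.2, Subtype.coe_eta, hv2]
        rfl
      have h3 : v1 = v2 := by
        rw [← h1, ← h2]
        exact heq
      have h4 : ψ e1' = ψ e2' := by rw [hv1, hv2, h3]
      rw [hψinj h4]

theorem orientable_image {V : Type*} [Fintype V] [DecidableEq V] {W : Type} [Fintype W]
    (f : W → V) (hf : Function.Injective f) (E' : Finset (Sym2 W)) (hE : Orientable E') :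
    Orientable (E'.image (Sym2.map f)) ∧ (E'.image (Sym2.map f)).card = E'.card := by
  classical
  have hinj : Function.Injective (Sym2.map f) := Sym2.map.injective hf
  refine ⟨?_, card_image_of_injective _ hinj⟩
  obtain ⟨g, hg, hginj⟩ := hE
  have key : ∀ e ∈ E', (if h : ∃ e0 ∈ E', Sym2.map f e0 = Sym2.map f e then
      f (g (Classical.choose h)) else (Quot.out (Sym2.map f e)).1) = f (g e) := by
    intro e he
    have h : ∃ e0 ∈ E', Sym2.map f e0 = Sym2.map f e := ⟨e, he, rfl⟩
    rw [dif_pos h]
    have h2 := (Classical.choose_spec h).2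
    rw [hinj h2]
  refine ⟨fun e' => if h : ∃ e0 ∈ E', Sym2.map f e0 = e' then f (g (Classical.choose h))
    else (Quot.out e').1, ?_, ?_⟩
  · intro e' he'
    rw [mem_image] at he'
    obtain ⟨e, he, rfl⟩ := he'
    beta_reduce
    rw [key e he, Sym2.mem_map]
    exact ⟨g e, hg e he, rfl⟩
  · intro e1' he1 e2' he2 heq
    rw [mem_coe, mem_image] at he1 he2
    obtain ⟨e1, he1, rfl⟩ := he1
    obtain ⟨e2, he2, rfl⟩ := he2
    have h3 : f (g e1) = f (g e2) := by
      rw [← key e1 he1, ← key e2 he2]
      exact heq
    rw [hginj he1 he2 (hf h3)]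

/-- the endpoint set of the image of an edge set under an injective vertex map -/
lemma pat_vset_image {V : Type*} [Fintype V] {W : Type} [Fintype W]
    (f : W → V) (hf : Function.Injective f) (Z : Finset (Sym2 W)) :
    (vset (by classical exact Z.image (Sym2.map f))).card = (vset Z).card := by
  classical
  have h : vset (Z.image (Sym2.map f)) = (vset Z).image f := by
    ext v
    rw [pat_mem_vset, mem_image]
    constructor
    · rintro ⟨e', he', hv⟩
      rw [mem_image] at he'
      obtain ⟨e, he, rfl⟩ := he'
      rw [Sym2.mem_map] at hv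
      obtain ⟨w, hw, rfl⟩ := hv
      exact ⟨w, (pat_mem_vset Z w).2 ⟨e, he, hw⟩, rfl⟩
    · rintro ⟨w, hw, rfl⟩
      obtain ⟨e, he, hwe⟩ := (pat_mem_vset Z w).1 hw
      exact ⟨Sym2.map f e, mem_image_of_mem _ he, Sym2.mem_map.2 ⟨w, hwe, rfl⟩⟩
  convert congrArg Finset.card h using 1
  exact (card_image_of_injective _ hf).symm

theorem pattern_reduce {V : Type*} [Fintype V] {H : SimpleGraph V} {c lam : ℝ} (hc : 1 ≤ c)
    (hlam : 1 ≤ lam) (hD : Dens H c lam) {W : Type} [Fintype W] (F : SimpleGraph W)
    (φ : Copy F H) :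
    ∃ F' : SimpleGraph W, F' ≤ F ∧
      (∃ E' : Finset (Sym2 W), (E' : Set (Sym2 W)) = F'.edgeSet ∧ Orientable E') ∧
      c ^ (F.edgeSet.ncard - F'.edgeSet.ncard) ≤ lam ^ F.edgeSet.ncard := by
  classical
  have hEcoe : ((Set.toFinite F.edgeSet).toFinset : Set (Sym2 W)) = F.edgeSet :=
    Set.Finite.coe_toFinset _
  have hEmem : ∀ e, e ∈ (Set.toFinite F.edgeSet).toFinset ↔ e ∈ F.edgeSet :=
    fun e => Set.Finite.mem_toFinset _
  have hEcard : (Set.toFinite F.edgeSet).toFinset.card = F.edgeSet.ncard :=
    (Set.ncard_eq_toFinset_card F.edgeSet (Set.toFinite F.edgeSet)).symm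
  -- the largest excess
  obtain ⟨Z0, hZ0, hsup⟩ := Finset.exists_mem_eq_sup (Set.toFinite F.edgeSet).toFinset.powerset
    ⟨∅, empty_mem_powerset _⟩ (fun Z => Z.card - (vset Z).card)
  rw [mem_powerset] at hZ0
  have hall : ∀ Z, Z ⊆ (Set.toFinite F.edgeSet).toFinset →
      Z.card ≤ (vset Z).card + (Z0.card - (vset Z0).card) := by
    intro Z hZ
    have h1 : Z.card - (vset Z).card ≤ Z0.card - (vset Z0).card := by
      rw [← hsup]
      exact Finset.le_sup (f := fun Z => Z.card - (vset Z).card) (mem_powerset.2 hZ)
    omega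
  -- the density property for the image of `Z0`
  have hdens := hD (Z0.image (Sym2.map φ)) (by
    intro e he
    rw [mem_image] at he
    obtain ⟨e0, he0, rfl⟩ := he
    exact φ.toHom.map_mem_edgeSet ((hEmem e0).1 (hZ0 he0)))
  have hφinj : Function.Injective (φ : W → V) := φ.injective
  rw [card_image_of_injective _ (Sym2.map.injective hφinj)] at hdens
  have hv := pat_vset_image (φ : W → V) hφinj Z0
  have hdens' : c ^ Z0.card ≤ c ^ (vset Z0).card * lam ^ Z0.card := by
    rw [← hv]
    convert hdens using 3
  have hc0 : 0 < c := lt_of_lt_of_le zero_lt_one hc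
  have hlam0 : 0 < lam := lt_of_lt_of_le zero_lt_one hlam
  have hct : c ^ (Z0.card - (vset Z0).card) ≤ lam ^ Z0.card := by
    by_cases hle : (vset Z0).card ≤ Z0.card
    · have h1 : c ^ Z0.card = c ^ (Z0.card - (vset Z0).card) * c ^ (vset Z0).card := by
        rw [← pow_add, Nat.sub_add_cancel hle]
      rw [h1, mul_comm] at hdens'
      exact le_of_mul_le_mul_left hdens' (pow_pos hc0 _)
    · have h0 : Z0.card - (vset Z0).card = 0 := by omega
      rw [h0, pow_zero]
      exact one_le_pow₀ hlam
  obtain ⟨E', hE'sub, hE'card, hE'or⟩ :=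
    exists_orientable_sub (Set.toFinite F.edgeSet).toFinset (Z0.card - (vset Z0).card) hall
  have hE'edge : ∀ e ∈ E', e ∈ F.edgeSet := fun e he => (hEmem e).1 (hE'sub he)
  have hedge : (SimpleGraph.fromEdgeSet (E' : Set (Sym2 W))).edgeSet = (E' : Set (Sym2 W)) := by
    rw [SimpleGraph.edgeSet_fromEdgeSet]
    ext e
    constructor
    · intro he
      exact he.1
    · intro he
      exact ⟨he, F.not_isDiag_of_mem_edgeSet (hE'edge e he)⟩
  refine ⟨SimpleGraph.fromEdgeSet (E' : Set (Sym2 W)), ?_, ⟨E', hedge.symm, hE'or⟩, ?_⟩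
  · rw [← SimpleGraph.edgeSet_subset_edgeSet, hedge]
    intro e he
    exact hE'edge e he
  · rw [hedge, Set.ncard_coe_finset, ← hEcard]
    have h1 : (Set.toFinite F.edgeSet).toFinset.card - E'.card ≤ Z0.card - (vset Z0).card := by
      rw [← card_sdiff_of_subset hE'sub]
      exact hE'card
    calc c ^ ((Set.toFinite F.edgeSet).toFinset.card - E'.card)
        ≤ c ^ (Z0.card - (vset Z0).card) := pow_le_pow_right₀ hc h1
      _ ≤ lam ^ Z0.card := hct
      _ ≤ lam ^ (Set.toFinite F.edgeSet).toFinset.card :=
          pow_le_pow_right₀ hlam (card_le_card hZ0)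

end Vale.Agent.Lib.P064.RG
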