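import Vale.Agent.Lib.P064.rg.ProbCoreAux
import Vale.Agent.Lib.P064.rg.PathDeg

/-!
# The probability that an orientable edge set survives in the core

A random colouring of the pairs with `k + 1` colours keeps a given orientable edge set `S` of
the host inside the core of the light graph with probability at least
`1 / (2 * (8 * (k + 1)) ^ |S|)`.
-/

namespace Vale.Agent.Lib.P064.RG

open Finset SimpleGraph Vale.Agent.KK Vale.Agent.KK.RG

theorem prob_core {n : ℕ} {H : SimpleGraph (Fin n)} {q : ℝ} (hq : 0 ≤ q)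
    (h : SubgraphsExpected n H q) (hlam : 2 ≤ (n : ℝ) * q) (r : ℕ) (hr : 2 ≤ r)
    (hcr : ((n : ℝ) * q) ^ (3 * r) ≤ n) (k : ℕ) (hk : 1 ≤ k)
    (hM : 2 * (n : ℝ) ^ 2 * Kp (n * q) ^ (r + 1) ≤ ((k : ℝ) + 1) ^ r)
    (S : Finset (Sym2 (Fin n))) (hS : ∀ e ∈ S, e ∈ H.edgeSet) (hor : Orientable S) :
    ((k : ℝ) + 1) ^ Fintype.card (Sym2 (Fin n)) ≤
      2 * (8 * ((k : ℝ) + 1)) ^ S.card *
        ((univ.filter (fun w : Sym2 (Fin n) → Fin (k + 1) => S ⊆ core (light H w))).card : ℝ) := by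
  have hGexp : SubgraphsExpected n (H.deleteEdges (S : Set (Sym2 (Fin n)))) q :=
    Vale.Agent.Lib.P064.PF.subgraphsExpected_mono (SimpleGraph.deleteEdges_le _) h
  exact prob_core_aux hq h hlam r hr hcr k hk hM S hS hor
    (fun f hinj hadj => path_deg_prod_le hq hGexp hlam r hr hcr f hinj hadj)

end Vale.Agent.Lib.P064.RG
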