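import Vale.Agent.KK.RG.Defs
import Vale.Agent.Lib.P064.rg.Pattern

/-!
# An orientable edge set survives in the core

If the light edges `L` contain the orientable edge set `S`, avoid the non-parent edges of a
breadth-first ball around `S`, and everything reachable from `S` through `L \ S` stays in the
ball, then `S` lies in the core of `L`.
-/

namespace Vale.Agent.Lib.P064.RG

open Finset SimpleGraph Vale.Agent.KK Vale.Agent.KK.RG

lemma sc_mem_X {V : Type*} [Fintype V] {G : SimpleGraph V} {A : Finset V} {r : ℕ}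
    (B : Bfs G A r) (e : Sym2 V) :
    e ∈ B.X ↔ e ∈ G.edgeSet ∧ (∀ v ∈ e, v ∈ B.Bd) ∧
      ¬ ∃ v ∈ B.Bd, v ∉ A ∧ e = s(v, B.par v) := by
  classical
  unfold Bfs.X
  constructor
  · intro h
    exact (Finset.mem_filter.1 h).2
  · intro h
    exact Finset.mem_filter.2 ⟨mem_univ _, h⟩

lemma sc_mem_core {V : Type*} [Fintype V] (L : Finset (Sym2 V)) (e : Sym2 V) :
    e ∈ core L ↔ e ∈ L ∧ ¬ ∃ Y, Y ⊆ L ∧ e ∈ Y ∧ MinViol Y := by
  classical
  unfold core
  exact Finset.mem_filter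

theorem sub_core {V : Type*} [Fintype V] [DecidableEq V] (H : SimpleGraph V)
    (S : Finset (Sym2 V)) (hS : ∀ e ∈ S, e ∈ H.edgeSet) (hor : Orientable S) (r : ℕ)
    (B : Bfs (H.deleteEdges (S : Set (Sym2 V))) (vset S) r)
    (L : Finset (Sym2 V)) (hL : ∀ e ∈ L, e ∈ H.edgeSet) (hSL : S ⊆ L) (hX : Disjoint L B.X)
    (hNE : ∀ a ∈ vset S, ∀ v,
      (SimpleGraph.fromEdgeSet ((L \ S : Finset (Sym2 V)) : Set (Sym2 V))).Reachable a v →
        v ∈ B.Bd) :
    S ⊆ core L := by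
  classical
  have _hS := hS
  intro e heS
  rw [sc_mem_core]
  refine ⟨hSL heS, ?_⟩
  rintro ⟨Y, hYL, heY, hviol, hmin⟩
  obtain ⟨g, hg, hginj⟩ := hor
  -- the vertices reachable from the endpoints of `S` through `L \ S`
  have hC : ∀ v, v ∈ (univ.filter (fun v => ∃ a ∈ vset S,
      (SimpleGraph.fromEdgeSet ((L \ S : Finset (Sym2 V)) : Set (Sym2 V))).Reachable a v)) ↔
      ∃ a ∈ vset S,
        (SimpleGraph.fromEdgeSet ((L \ S : Finset (Sym2 V)) : Set (Sym2 V))).Reachable a v :=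
    fun v => ⟨fun h => (mem_filter.1 h).2, fun h => mem_filter.2 ⟨mem_univ _, h⟩⟩
  generalize (univ.filter (fun v => ∃ a ∈ vset S,
      (SimpleGraph.fromEdgeSet ((L \ S : Finset (Sym2 V)) : Set (Sym2 V))).Reachable a v)) = C
    at hC
  have hSC : ∀ v ∈ vset S, v ∈ C := fun v hv => (hC v).2 ⟨v, hv, Reachable.refl v⟩
  -- the near edges: all their endpoints are reachable
  have hnear : ∀ f ∈ Y.filter (fun f => ∃ v ∈ f, v ∈ C), ∀ v ∈ f, v ∈ C := by
    intro f hf v hv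
    rw [mem_filter] at hf
    obtain ⟨hfY, u, hu, huC⟩ := hf
    by_cases hfS : f ∈ S
    · exact hSC v ((pat_mem_vset S v).2 ⟨f, hfS, hv⟩)
    · by_cases huv : u = v
      · rw [← huv]
        exact huC
      · have hf_eq : f = s(u, v) := (Sym2.mem_and_mem_iff huv).1 ⟨hu, hv⟩
        have hadj : (SimpleGraph.fromEdgeSet
            ((L \ S : Finset (Sym2 V)) : Set (Sym2 V))).Adj u v := by
          rw [SimpleGraph.fromEdgeSet_adj]
          refine ⟨?_, huv⟩
          rw [← hf_eq, mem_coe, mem_sdiff]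
          exact ⟨hYL hfY, hfS⟩
        obtain ⟨a, ha, hreach⟩ := (hC u).1 huC
        exact (hC v).2 ⟨a, ha, hreach.trans hadj.reachable⟩
  have hvnear : vset (Y.filter (fun f => ∃ v ∈ f, v ∈ C)) ⊆ C := by
    intro v hv
    obtain ⟨f, hf, hvf⟩ := (pat_mem_vset _ v).1 hv
    exact hnear f hf v hvf
  have hvfar : ∀ v ∈ vset (Y.filter (fun f => ¬ ∃ v ∈ f, v ∈ C)), v ∉ C := by
    intro v hv hvC
    obtain ⟨f, hf, hvf⟩ := (pat_mem_vset _ v).1 hv
    rw [mem_filter] at hf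
    exact hf.2 ⟨v, hvf, hvC⟩
  have hdisj : Disjoint (vset (Y.filter (fun f => ∃ v ∈ f, v ∈ C)))
      (vset (Y.filter (fun f => ¬ ∃ v ∈ f, v ∈ C))) := by
    rw [Finset.disjoint_left]
    intro v h1 h2
    exact hvfar v h2 (hvnear h1)
  have hunion : vset (Y.filter (fun f => ∃ v ∈ f, v ∈ C)) ∪
      vset (Y.filter (fun f => ¬ ∃ v ∈ f, v ∈ C)) ⊆ vset Y := by
    intro v hv
    rw [mem_union] at hv
    rcases hv with hv | hv
    · obtain ⟨f, hf, hvf⟩ := (pat_mem_vset _ v).1 hv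
      exact (pat_mem_vset _ v).2 ⟨f, (mem_filter.1 hf).1, hvf⟩
    · obtain ⟨f, hf, hvf⟩ := (pat_mem_vset _ v).1 hv
      exact (pat_mem_vset _ v).2 ⟨f, (mem_filter.1 hf).1, hvf⟩
  have hcardV : (vset (Y.filter (fun f => ∃ v ∈ f, v ∈ C))).card +
      (vset (Y.filter (fun f => ¬ ∃ v ∈ f, v ∈ C))).card ≤ (vset Y).card := by
    rw [← card_union_of_disjoint hdisj]
    exact card_le_card hunion
  have hcardY : (Y.filter (fun f => ∃ v ∈ f, v ∈ C)).card +
      (Y.filter (fun f => ¬ ∃ v ∈ f, v ∈ C)).card = Y.card :=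
    Finset.card_filter_add_card_filter_not (fun f => ∃ v ∈ f, v ∈ C)
  -- the near edges outside `S` are parent edges of the ball
  have hch : ∀ f ∈ Y.filter (fun f => ∃ v ∈ f, v ∈ C), f ∉ S →
      ∃ v ∈ B.Bd, v ∉ vset S ∧ f = s(v, B.par v) := by
    intro f hf hfS
    have hfY : f ∈ Y := (mem_filter.1 hf).1
    have hfL : f ∈ L := hYL hfY
    have hfG : f ∈ (H.deleteEdges (S : Set (Sym2 V))).edgeSet := by
      rw [SimpleGraph.edgeSet_deleteEdges]
      exact ⟨hL f hfL, fun h => hfS (mem_coe.1 h)⟩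
    have hfBd : ∀ v ∈ f, v ∈ B.Bd := by
      intro v hv
      obtain ⟨a, ha, hreach⟩ := (hC v).1 (hnear f hf v hv)
      exact hNE a ha v hreach
    have hfX : f ∉ B.X := fun h => (Finset.disjoint_left.1 hX) hfL h
    rw [sc_mem_X] at hfX
    by_contra hcon
    exact hfX ⟨hfG, hfBd, hcon⟩
  -- the injective choice of endpoints
  have hchoice : ∃ ch : Sym2 V → V, (∀ f ∈ S, ch f = g f) ∧
      ∀ f ∈ Y.filter (fun f => ∃ v ∈ f, v ∈ C), f ∉ S →
        ch f ∈ B.Bd ∧ ch f ∉ vset S ∧ f = s(ch f, B.par (ch f)) := by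
    refine ⟨fun f => if hfS : f ∈ S then g f
      else if h : ∃ v ∈ B.Bd, v ∉ vset S ∧ f = s(v, B.par v) then Classical.choose h
      else g f, ?_, ?_⟩
    · intro f hf
      exact dif_pos hf
    · intro f hf hfS
      have h := hch f hf hfS
      have e1 : (if hfS : f ∈ S then g f
          else if h : ∃ v ∈ B.Bd, v ∉ vset S ∧ f = s(v, B.par v) then Classical.choose h
          else g f) = Classical.choose h := by
        rw [dif_neg hfS, dif_pos h]
      beta_reduce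
      rw [e1]
      exact Classical.choose_spec h
  obtain ⟨ch, hchS, hchN⟩ := hchoice
  have hinj : Set.InjOn ch ((Y.filter (fun f => ∃ v ∈ f, v ∈ C) : Finset (Sym2 V)) :
      Set (Sym2 V)) := by
    intro f1 hf1 f2 hf2 heq
    rw [mem_coe] at hf1 hf2
    by_cases h1 : f1 ∈ S
    · by_cases h2 : f2 ∈ S
      · rw [hchS f1 h1, hchS f2 h2] at heq
        exact hginj (mem_coe.2 h1) (mem_coe.2 h2) heq
      · exfalso
        have h3 := (hchN f2 hf2 h2).2.1
        rw [← heq, hchS f1 h1] at h3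
        exact h3 ((pat_mem_vset S _).2 ⟨f1, h1, hg f1 h1⟩)
    · by_cases h2 : f2 ∈ S
      · exfalso
        have h3 := (hchN f1 hf1 h1).2.1
        rw [heq, hchS f2 h2] at h3
        exact h3 ((pat_mem_vset S _).2 ⟨f2, h2, hg f2 h2⟩)
      · have e1 := (hchN f1 hf1 h1).2.2
        have e2 := (hchN f2 hf2 h2).2.2
        rw [e1, e2, heq]
  have hmaps : ∀ f ∈ Y.filter (fun f => ∃ v ∈ f, v ∈ C),
      ch f ∈ vset (Y.filter (fun f => ∃ v ∈ f, v ∈ C)) := by
    intro f hf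
    rw [pat_mem_vset]
    refine ⟨f, hf, ?_⟩
    by_cases h1 : f ∈ S
    · rw [hchS f h1]
      exact hg f h1
    · have e1 := (hchN f hf h1).2.2
      exact (congrArg (fun z => ch f ∈ z) e1).mpr (Sym2.mem_mk_left _ _)
  have hcardN : (Y.filter (fun f => ∃ v ∈ f, v ∈ C)).card ≤
      (vset (Y.filter (fun f => ∃ v ∈ f, v ∈ C))).card :=
    Finset.card_le_card_of_injOn ch hmaps hinj
  -- the far edges violate, and they form a proper subset of `Y`
  have hviolfar : Viol (Y.filter (fun f => ¬ ∃ v ∈ f, v ∈ C)) := by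
    unfold Viol at hviol ⊢
    omega
  have hss : Y.filter (fun f => ¬ ∃ v ∈ f, v ∈ C) ⊂ Y := by
    rw [Finset.ssubset_iff_of_subset (Finset.filter_subset _ _)]
    refine ⟨e, heY, ?_⟩
    intro heF
    rw [mem_filter] at heF
    exact heF.2 ⟨e.out.1, Sym2.out_fst_mem e,
      hSC _ ((pat_mem_vset S _).2 ⟨e, heS, Sym2.out_fst_mem e⟩)⟩
  exact hmin _ hss hviolfar

end Vale.Agent.Lib.P064.RG
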