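import Vale.Agent.KK.RG.Defs
import Vale.Agent.Lib.P064.rg.Colorings
import Vale.Agent.Lib.P064.rg.Dens
import Vale.Agent.Lib.P064.rg.BfsExists
import Vale.Agent.Lib.P064.rg.CardX
import Vale.Agent.Lib.P064.rg.SubCore
import Vale.Agent.Lib.P064.rg.PathCount
import Vale.Agent.Lib.P064.rg.LightPath

/-!
# The probability that an orientable edge set survives in the core (with the bound on the
degree products along short paths as a hypothesis)

A random colouring of the pairs with `k + 1` colours keeps a given orientable edge set `S` of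
the host inside the core of the light graph with probability at least
`1 / (2 * (8 * (k + 1)) ^ |S|)`.
-/

namespace Vale.Agent.Lib.P064.RG

open Finset SimpleGraph Vale.Agent.KK Vale.Agent.KK.RG

/-- the edges of `B.X` are edges of the graph -/
theorem pc_mem_X {V : Type*} [Fintype V] {G : SimpleGraph V} {A : Finset V} {r : ℕ}
    (B : Bfs G A r) (e : Sym2 V) (he : e ∈ B.X) : e ∈ G.edgeSet := by
  classical
  unfold Bfs.X at he
  exact (Finset.mem_filter.1 he).2.1

/-- the arithmetic at the end of the count -/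
theorem pc_arith (k N s x : ℕ) (hk : 1 ≤ k) (hx : x ≤ 3 * s) (hN : s + x ≤ N) :
    (k + 1) ^ N ≤ (8 * (k + 1)) ^ s * (k ^ x * (k + 1) ^ (N - s - x)) := by
  have h1 : (k + 1) ^ x ≤ 8 ^ s * k ^ x := by
    calc (k + 1) ^ x ≤ (2 * k) ^ x := Nat.pow_le_pow_left (by omega) x
      _ = 2 ^ x * k ^ x := mul_pow 2 k x
      _ ≤ 2 ^ (3 * s) * k ^ x :=
          Nat.mul_le_mul_right _ (Nat.pow_le_pow_right (by norm_num) hx)
      _ = 8 ^ s * k ^ x := by rw [pow_mul]; norm_num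
  have h2 : (k + 1) ^ N = (k + 1) ^ s * (k + 1) ^ x * (k + 1) ^ (N - s - x) := by
    rw [← pow_add, ← pow_add]
    congr 1
    omega
  calc (k + 1) ^ N = (k + 1) ^ s * (k + 1) ^ x * (k + 1) ^ (N - s - x) := h2
    _ ≤ (k + 1) ^ s * (8 ^ s * k ^ x) * (k + 1) ^ (N - s - x) :=
        Nat.mul_le_mul_right _ (Nat.mul_le_mul_left _ h1)
    _ = (8 * (k + 1)) ^ s * (k ^ x * (k + 1) ^ (N - s - x)) := by rw [mul_pow]; ring

/-- the union bound over the short light paths -/
theorem pc_count {ι : Type*} [Fintype ι] [DecidableEq ι] (k r : ℕ) (S X : Finset ι)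
    (hSX : Disjoint S X) (P : Finset (Finset ι))
    (hP : ∀ π ∈ P, π.card = r ∧ Disjoint S π)
    (Good : (ι → Fin (k + 1)) → Prop) [DecidablePred Good]
    (hcov : ∀ w : ι → Fin (k + 1), (∀ i ∈ S, w i = 0) → (∀ i ∈ X, w i ≠ 0) →
      Good w ∨ ∃ π ∈ P, ∀ i ∈ π, w i = 0)
    (hPc : 2 * (P.card : ℝ) ≤ ((k : ℝ) + 1) ^ r) :
    ((k ^ X.card * (k + 1) ^ (Fintype.card ι - S.card - X.card) : ℕ) : ℝ) ≤
      2 * ((univ.filter Good).card : ℝ) := by
  have hG1c : (univ.filter (fun w : ι → Fin (k + 1) =>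
      (∀ i ∈ S, w i = 0) ∧ ∀ i ∈ X, w i ≠ 0)).card =
      k ^ X.card * (k + 1) ^ (Fintype.card ι - S.card - X.card) := card_colorings k S X hSX
  have hsub : univ.filter (fun w : ι → Fin (k + 1) =>
      (∀ i ∈ S, w i = 0) ∧ ∀ i ∈ X, w i ≠ 0) ⊆
      univ.filter Good ∪ P.biUnion (fun π => univ.filter (fun w : ι → Fin (k + 1) =>
        (∀ i ∈ S ∪ π, w i = 0) ∧ ∀ i ∈ X, w i ≠ 0)) := by
    intro w hw
    rw [mem_filter] at hw
    rcases hcov w hw.2.1 hw.2.2 with hg | ⟨π, hπ, hπ0⟩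
    · exact mem_union_left _ (mem_filter.2 ⟨mem_univ _, hg⟩)
    · refine mem_union_right _ (mem_biUnion.2 ⟨π, hπ, ?_⟩)
      refine mem_filter.2 ⟨mem_univ _, ?_, hw.2.2⟩
      intro i hi
      rcases mem_union.1 hi with hi | hi
      · exact hw.2.1 i hi
      · exact hπ0 i hi
  have hbad : ∀ π ∈ P, (univ.filter (fun w : ι → Fin (k + 1) =>
      (∀ i ∈ S ∪ π, w i = 0) ∧ ∀ i ∈ X, w i ≠ 0)).card * (k + 1) ^ r ≤
      k ^ X.card * (k + 1) ^ (Fintype.card ι - S.card - X.card) := by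
    intro π hπ
    obtain ⟨hc, hd⟩ := hP π hπ
    by_cases hdX : Disjoint (S ∪ π) X
    · have h1 : (univ.filter (fun w : ι → Fin (k + 1) =>
          (∀ i ∈ S ∪ π, w i = 0) ∧ ∀ i ∈ X, w i ≠ 0)).card =
          k ^ X.card * (k + 1) ^ (Fintype.card ι - (S ∪ π).card - X.card) :=
        card_colorings k (S ∪ π) X hdX
      have h2 : (S ∪ π).card = S.card + r := by rw [card_union_of_disjoint hd, hc]
      have h3 : S.card + r + X.card ≤ Fintype.card ι := by
        have h4 : ((S ∪ π) ∪ X).card ≤ Fintype.card ι := Finset.card_le_univ _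
        rw [card_union_of_disjoint hdX, h2] at h4
        exact h4
      rw [h1, h2, mul_assoc, ← pow_add]
      have h5 : Fintype.card ι - (S.card + r) - X.card + r =
          Fintype.card ι - S.card - X.card := by omega
      rw [h5]
    · have h1 : (univ.filter (fun w : ι → Fin (k + 1) =>
          (∀ i ∈ S ∪ π, w i = 0) ∧ ∀ i ∈ X, w i ≠ 0)) = ∅ := by
        rw [Finset.not_disjoint_iff] at hdX
        obtain ⟨i, hi1, hi2⟩ := hdX
        apply Finset.eq_empty_of_forall_notMem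
        intro w hw
        rw [mem_filter] at hw
        exact hw.2.2 i hi2 (hw.2.1 i hi1)
      rw [h1, card_empty, zero_mul]
      exact Nat.zero_le _
  have hcard := (card_le_card hsub).trans ((card_union_le _ _).trans
    (Nat.add_le_add_left card_biUnion_le _))
  rw [hG1c] at hcard
  have hsum : (∑ π ∈ P, (univ.filter (fun w : ι → Fin (k + 1) =>
      (∀ i ∈ S ∪ π, w i = 0) ∧ ∀ i ∈ X, w i ≠ 0)).card) * (k + 1) ^ r ≤
      P.card * (k ^ X.card * (k + 1) ^ (Fintype.card ι - S.card - X.card)) := by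
    rw [Finset.sum_mul]
    calc _ ≤ ∑ _π ∈ P, k ^ X.card * (k + 1) ^ (Fintype.card ι - S.card - X.card) :=
          Finset.sum_le_sum hbad
      _ = P.card * (k ^ X.card * (k + 1) ^ (Fintype.card ι - S.card - X.card)) := by
          rw [Finset.sum_const, smul_eq_mul]
  generalize k ^ X.card * (k + 1) ^ (Fintype.card ι - S.card - X.card) = T at hcard hsum ⊢
  generalize (univ.filter Good).card = Gd at hcard ⊢
  generalize (∑ π ∈ P, (univ.filter (fun w : ι → Fin (k + 1) =>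
      (∀ i ∈ S ∪ π, w i = 0) ∧ ∀ i ∈ X, w i ≠ 0)).card) = Sm at hcard hsum
  have hMpos : (0 : ℝ) < ((k : ℝ) + 1) ^ r := by positivity
  have e1 : (T : ℝ) ≤ (Gd : ℝ) + (Sm : ℝ) := by exact_mod_cast hcard
  have e2 : (Sm : ℝ) * ((k : ℝ) + 1) ^ r ≤ (P.card : ℝ) * (T : ℝ) := by exact_mod_cast hsum
  have hT0 : (0 : ℝ) ≤ (T : ℝ) := Nat.cast_nonneg _
  have e3 : ((T : ℝ) - 2 * (Gd : ℝ)) * ((k : ℝ) + 1) ^ r ≤ 0 := by
    nlinarith [mul_nonneg hT0 (sub_nonneg.2 hPc), mul_le_mul_of_nonneg_right e1 hMpos.le]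
  by_contra hcon
  have hcon' : 2 * (Gd : ℝ) < (T : ℝ) := not_le.1 hcon
  have hpos : 0 < ((T : ℝ) - 2 * (Gd : ℝ)) * ((k : ℝ) + 1) ^ r :=
    mul_pos (by linarith) hMpos
  linarith

theorem prob_core_aux {n : ℕ} {H : SimpleGraph (Fin n)} {q : ℝ} (hq : 0 ≤ q)
    (h : SubgraphsExpected n H q) (hlam : 2 ≤ (n : ℝ) * q) (r : ℕ) (hr : 2 ≤ r)
    (hcr : ((n : ℝ) * q) ^ (3 * r) ≤ n) (k : ℕ) (hk : 1 ≤ k)
    (hM : 2 * (n : ℝ) ^ 2 * Kp (n * q) ^ (r + 1) ≤ ((k : ℝ) + 1) ^ r)
    (S : Finset (Sym2 (Fin n))) (hS : ∀ e ∈ S, e ∈ H.edgeSet) (hor : Orientable S)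
    (hdeg : ∀ f : ℕ → Fin n, Set.InjOn f (Set.Iic r) →
      (∀ i < r, (H.deleteEdges (S : Set (Sym2 (Fin n)))).Adj (f i) (f (i + 1))) →
      ∏ i ∈ range r, (((H.deleteEdges (S : Set (Sym2 (Fin n)))).neighborSet (f i)).ncard : ℝ) ≤
        n * Kp (n * q) ^ (r + 1)) :
    ((k : ℝ) + 1) ^ Fintype.card (Sym2 (Fin n)) ≤
      2 * (8 * ((k : ℝ) + 1)) ^ S.card *
        ((univ.filter (fun w : Sym2 (Fin n) → Fin (k + 1) => S ⊆ core (light H w))).card : ℝ) := by
  classical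
  obtain ⟨B⟩ := exists_bfs (H.deleteEdges (S : Set (Sym2 (Fin n)))) (vset S) r (by omega)
  have hGS : ∀ e, e ∈ (H.deleteEdges (S : Set (Sym2 (Fin n)))).edgeSet →
      e ∈ H.edgeSet ∧ e ∉ S := by
    intro e he
    rw [SimpleGraph.edgeSet_deleteEdges] at he
    exact ⟨he.1, fun h' => he.2 (Finset.mem_coe.2 h')⟩
  have hXG : ∀ e ∈ B.X, e ∈ (H.deleteEdges (S : Set (Sym2 (Fin n)))).edgeSet := by
    intro e he
    exact pc_mem_X B e he
  have hSX : Disjoint S B.X := by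
    rw [Finset.disjoint_left]
    intro e heS heX
    exact (hGS e (hXG e heX)).2 heS
  have hXc : B.X.card ≤ 3 * S.card :=
    card_X_le H (n : ℝ) (n * q) (by linarith) (dens_of_hyp hq h) S hS r (by omega) hcr B
  have hKp0 : 0 ≤ Kp ((n : ℝ) * q) := by
    unfold Kp
    have : 0 ≤ (n : ℝ) * q := by linarith
    positivity
  have hBnd0 : 0 ≤ (n : ℝ) * Kp ((n : ℝ) * q) ^ (r + 1) := by positivity
  have hpath : ∀ a : Fin n,
      ((pathSets (H.deleteEdges (S : Set (Sym2 (Fin n)))) a r).card : ℝ) ≤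
        (n : ℝ) * Kp ((n : ℝ) * q) ^ (r + 1) := by
    intro a
    refine card_pathSets_le _ a r _ hBnd0 ?_
    intro b p hp hl
    refine hdeg p.getVert ?_ ?_
    · intro i hi j hj hij
      refine hp.getVert_injOn ?_ ?_ hij
      · show i ≤ p.length
        rw [hl]
        exact hi
      · show j ≤ p.length
        rw [hl]
        exact hj
    · intro i hi
      exact p.adj_getVert_succ (by omega)
  set P : Finset (Finset (Sym2 (Fin n))) :=
    (vset S).biUnion (fun a => pathSets (H.deleteEdges (S : Set (Sym2 (Fin n)))) a r) with hPdef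
  have hP : ∀ π ∈ P, π.card = r ∧ Disjoint S π := by
    intro π hπ
    rw [hPdef, mem_biUnion] at hπ
    obtain ⟨a, _, hπa⟩ := hπ
    obtain ⟨hc, he⟩ := card_of_mem_pathSets _ a r π hπa
    refine ⟨hc, ?_⟩
    rw [Finset.disjoint_left]
    intro e heS heπ
    exact (hGS e (he e heπ)).2 heS
  have hPc : 2 * (P.card : ℝ) ≤ ((k : ℝ) + 1) ^ r := by
    have h1 : (P.card : ℝ) ≤ ∑ a ∈ vset S,
        ((pathSets (H.deleteEdges (S : Set (Sym2 (Fin n)))) a r).card : ℝ) := by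
      have : P.card ≤ ∑ a ∈ vset S,
          (pathSets (H.deleteEdges (S : Set (Sym2 (Fin n)))) a r).card := card_biUnion_le
      exact_mod_cast this
    have h2 : ∑ a ∈ vset S,
        ((pathSets (H.deleteEdges (S : Set (Sym2 (Fin n)))) a r).card : ℝ) ≤
        ∑ _a ∈ vset S, (n : ℝ) * Kp ((n : ℝ) * q) ^ (r + 1) :=
      Finset.sum_le_sum (fun a _ => hpath a)
    have h3 : ((vset S).card : ℝ) ≤ (n : ℝ) := by
      have : (vset S).card ≤ Fintype.card (Fin n) := Finset.card_le_univ _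
      rw [Fintype.card_fin] at this
      exact_mod_cast this
    rw [Finset.sum_const, nsmul_eq_mul] at h2
    have h4 : ((vset S).card : ℝ) * ((n : ℝ) * Kp ((n : ℝ) * q) ^ (r + 1)) ≤
        (n : ℝ) * ((n : ℝ) * Kp ((n : ℝ) * q) ^ (r + 1)) :=
      mul_le_mul_of_nonneg_right h3 hBnd0
    nlinarith
  have hcov : ∀ w : Sym2 (Fin n) → Fin (k + 1), (∀ i ∈ S, w i = 0) → (∀ i ∈ B.X, w i ≠ 0) →
      S ⊆ core (light H w) ∨ ∃ π ∈ P, ∀ i ∈ π, w i = 0 := by
    intro w h0 h1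
    have hlight : ∀ e, e ∈ light H w ↔ e ∈ H.edgeSet ∧ w e = 0 := by
      intro e
      unfold light
      rw [mem_filter]
      exact ⟨fun hh => hh.2, fun hh => ⟨mem_univ _, hh⟩⟩
    have hL : ∀ e ∈ light H w, e ∈ H.edgeSet := fun e he => ((hlight e).1 he).1
    have hSL : S ⊆ light H w := fun e he => (hlight e).2 ⟨hS e he, h0 e he⟩
    have hX : Disjoint (light H w) B.X := by
      rw [Finset.disjoint_left]
      intro e heL heX
      exact h1 e heX ((hlight e).1 heL).2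
    by_cases hNE : ∀ a ∈ vset S, ∀ v,
        (SimpleGraph.fromEdgeSet ((light H w \ S : Finset (Sym2 (Fin n))) :
          Set (Sym2 (Fin n)))).Reachable a v → v ∈ B.Bd
    · left
      exact sub_core H S hS hor r B (light H w) hL hSL hX hNE
    · right
      simp only [not_forall] at hNE
      obtain ⟨a, ha, v, hv, hvB⟩ := hNE
      have hL' : ∀ e ∈ light H w \ S,
          e ∈ (H.deleteEdges (S : Set (Sym2 (Fin n)))).edgeSet := by
        intro e he
        rw [mem_sdiff] at he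
        rw [SimpleGraph.edgeSet_deleteEdges]
        exact ⟨hL e he.1, fun h' => he.2 (Finset.mem_coe.1 h')⟩
      obtain ⟨a', ha', π, hπ, hπL⟩ :=
        exists_light_path (H.deleteEdges (S : Set (Sym2 (Fin n)))) (vset S) r (by omega) B
          (light H w \ S) hL' a ha v hv hvB
      refine ⟨π, ?_, fun i hi => ?_⟩
      · rw [hPdef, mem_biUnion]
        exact ⟨a', ha', hπ⟩
      · exact ((hlight i).1 (mem_sdiff.1 (hπL hi)).1).2
  have hcount := pc_count k r S B.X hSX P hP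
    (fun w : Sym2 (Fin n) → Fin (k + 1) => S ⊆ core (light H w)) hcov hPc
  have hN : S.card + B.X.card ≤ Fintype.card (Sym2 (Fin n)) := by
    have h4 : (S ∪ B.X).card ≤ Fintype.card (Sym2 (Fin n)) := Finset.card_le_univ _
    rw [card_union_of_disjoint hSX] at h4
    exact h4
  have harith := pc_arith k (Fintype.card (Sym2 (Fin n))) S.card B.X.card hk hXc hN
  have harithR : ((k : ℝ) + 1) ^ Fintype.card (Sym2 (Fin n)) ≤
      (8 * ((k : ℝ) + 1)) ^ S.card *
        ((k ^ B.X.card * (k + 1) ^ (Fintype.card (Sym2 (Fin n)) - S.card - B.X.card) : ℕ) : ℝ) := by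
    exact_mod_cast harith
  have h8 : (0 : ℝ) ≤ (8 * ((k : ℝ) + 1)) ^ S.card := by positivity
  calc ((k : ℝ) + 1) ^ Fintype.card (Sym2 (Fin n))
      ≤ (8 * ((k : ℝ) + 1)) ^ S.card *
        ((k ^ B.X.card * (k + 1) ^ (Fintype.card (Sym2 (Fin n)) - S.card - B.X.card) : ℕ) : ℝ) :=
        harithR
    _ ≤ (8 * ((k : ℝ) + 1)) ^ S.card * (2 * ((univ.filter
          (fun w : Sym2 (Fin n) → Fin (k + 1) => S ⊆ core (light H w))).card : ℝ)) :=
        mul_le_mul_of_nonneg_left hcount h8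
    _ = 2 * (8 * ((k : ℝ) + 1)) ^ S.card * ((univ.filter
          (fun w : Sym2 (Fin n) → Fin (k + 1) => S ⊆ core (light H w))).card : ℝ) := by ring

end Vale.Agent.Lib.P064.RG
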