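import Vale.Agent.Lib.P064.rg.Dens
import Vale.Agent.Lib.P064.rg.Pattern
import Vale.Agent.Lib.P064.rg.CoreHall
import Vale.Agent.Lib.P064.rg.ProbCore

/-!
# The labelled copy-count inequality when `n q` is bounded
-/

namespace Vale.Agent.Lib.P064.RG

open Finset SimpleGraph
open Vale.Agent.KK Vale.Agent.KK.RG Vale.Agent.KK.PF Vale.Agent.Lib.P064 Vale.Agent.Lib.P064.PF

/-- Copies of a graph are copies of its subgraphs on the same vertex set. -/
theorem rl_labelled_mono {V W : Type*} [Fintype V] [Fintype W] (H : SimpleGraph V)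
    {F F' : SimpleGraph W} (hle : F' ≤ F) :
    H.labelledCopyCount F ≤ H.labelledCopyCount F' := by
  rw [labelledCopyCount_eq_natCard, labelledCopyCount_eq_natCard]
  have hfin : Finite (Copy F' H) :=
    Finite.of_injective (fun φ : Copy F' H => (φ : W → V)) DFunLike.coe_injective
  apply Nat.card_le_card_of_injective (fun φ : Copy F H => φ.comp (Copy.ofLE F' F hle))
  intro φ φ' hh
  apply DFunLike.ext
  intro w
  have := congrArg (fun ψ : Copy F' H => ψ w) hh
  simpa using this

/-- The labelled inequality for the core of any set of edges of the host. -/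
theorem rl_core_graph_le {n : ℕ} {H : SimpleGraph (Fin n)} {q : ℝ} (hq : 0 ≤ q)
    (h : SubgraphsExpected n H q) (L : Finset (Sym2 (Fin n))) (hL : ∀ e ∈ L, e ∈ H.edgeSet)
    (F' : SimpleGraph (Fin n)) :
    ((SimpleGraph.fromEdgeSet (core L : Set (Sym2 (Fin n)))).labelledCopyCount F' : ℝ) ≤
      (n.factorial : ℝ) * (6000000000 * q) ^ F'.edgeSet.ncard := by
  classical
  set T := SimpleGraph.fromEdgeSet (core L : Set (Sym2 (Fin n))) with hT
  have hTH : T ≤ H := by
    intro a b hab
    rw [hT, SimpleGraph.fromEdgeSet_adj] at hab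
    have h1 : s(a, b) ∈ core L := by exact_mod_cast hab.1
    simp only [core, Finset.mem_filter] at h1
    exact (SimpleGraph.mem_edgeSet H).1 (hL _ h1.1)
  obtain ⟨par, hpar, hpar2⟩ := exists_out_orientation T (core_hall L)
  have h1 := pf_labelled_le_min par hpar hpar2 hq (subgraphsExpected_mono hTH h) (Fin n) F'
  rw [Fintype.card_fin, Nat.descFactorial_self] at h1
  refine le_trans h1 ?_
  apply mul_le_mul_of_nonneg_left _ (Nat.cast_nonneg _)
  exact pow_le_pow_left₀ (le_min zero_le_one (by positivity)) (min_le_right _ _) _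

/-- The copies whose edge image lies in `C` are copies in the graph with edge set `C`. -/
theorem rl_count_le {n : ℕ} (H : SimpleGraph (Fin n)) (F' : SimpleGraph (Fin n))
    (E' : Finset (Sym2 (Fin n))) (hE' : (E' : Set (Sym2 (Fin n))) = F'.edgeSet)
    (C : Finset (Sym2 (Fin n))) :
    Nat.card {φ : Copy F' H // E'.image (Sym2.map φ) ⊆ C} ≤
      (SimpleGraph.fromEdgeSet (C : Set (Sym2 (Fin n)))).labelledCopyCount F' := by
  classical
  rw [labelledCopyCount_eq_natCard]
  have hadj : ∀ (φ : {φ : Copy F' H // E'.image (Sym2.map φ) ⊆ C}) (a b : Fin n),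
      F'.Adj a b → (SimpleGraph.fromEdgeSet (C : Set (Sym2 (Fin n)))).Adj (φ.1 a) (φ.1 b) := by
    intro φ a b hab
    rw [SimpleGraph.fromEdgeSet_adj]
    refine ⟨?_, fun hne => hab.ne (φ.1.injective hne)⟩
    have h1 : s(a, b) ∈ E' := by
      have : s(a, b) ∈ (E' : Set (Sym2 (Fin n))) := by rw [hE']; exact hab
      exact_mod_cast this
    have h2 : Sym2.map φ.1 s(a, b) ∈ E'.image (Sym2.map φ.1) := Finset.mem_image_of_mem _ h1
    have h3 := φ.2 h2
    rw [Sym2.map_mk] at h3
    exact_mod_cast h3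
  apply Nat.card_le_card_of_injective
    (fun φ : {φ : Copy F' H // E'.image (Sym2.map φ) ⊆ C} =>
      (⟨⟨fun a => φ.1 a, fun {a b} hab => hadj φ a b hab⟩, φ.1.injective⟩ :
        Copy F' (SimpleGraph.fromEdgeSet (C : Set (Sym2 (Fin n))))))
  intro φ φ' hh
  apply Subtype.ext
  apply DFunLike.ext
  intro w
  have := congrArg
    (fun ψ : Copy F' (SimpleGraph.fromEdgeSet (C : Set (Sym2 (Fin n)))) => ψ w) hh
  exact this

theorem regime_labelled {n : ℕ} {H : SimpleGraph (Fin n)} {q : ℝ} (hq : 0 ≤ q)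
    (h : SubgraphsExpected n H q) (hlam : 2 ≤ (n : ℝ) * q) (r : ℕ) (hr : 2 ≤ r)
    (hcr : ((n : ℝ) * q) ^ (3 * r) ≤ n) (k : ℕ) (hk : 1 ≤ k)
    (hM : 2 * (n : ℝ) ^ 2 * Kp (n * q) ^ (r + 1) ≤ ((k : ℝ) + 1) ^ r)
    (F : SimpleGraph (Fin n)) :
    (H.labelledCopyCount F : ℝ) ≤
      (n.factorial : ℝ) *
        (16 * ((k : ℝ) + 1) * 6000000000 * ((n : ℝ) * q) * q) ^ F.edgeSet.ncard := by
  classical
  set Mc : ℝ := (k : ℝ) + 1 with hMc
  set lam : ℝ := (n : ℝ) * q with hlamdef
  have hk1 : (1 : ℝ) ≤ (k : ℝ) := by exact_mod_cast hk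
  have hMc2 : 2 ≤ Mc := by rw [hMc]; linarith
  have hMc0 : 0 < Mc := by linarith
  have hn0 : 0 < n := by
    rcases Nat.eq_zero_or_pos n with h0 | h0
    · exfalso
      rw [hlamdef, h0] at hlam
      simp at hlam
      linarith
    · exact h0
  have hnpos : (0 : ℝ) < n := by exact_mod_cast hn0
  have hn1 : (1 : ℝ) ≤ n := by exact_mod_cast hn0
  have hqpos : 0 < q := by
    by_contra hq0
    have hq00 : q = 0 := le_antisymm (not_lt.1 hq0) hq
    rw [hlamdef, hq00] at hlam
    simp at hlam
    linarith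
  have hlam1 : (1 : ℝ) ≤ lam := by linarith
  have htop : (H.labelledCopyCount F : ℝ) ≤ (n.factorial : ℝ) := by
    have h1 := labelled_le_top H F
    rw [labelledCopyCount_top, Fintype.card_fin, Nat.descFactorial_self] at h1
    exact_mod_cast h1
  set e := F.edgeSet.ncard with he
  rcases Nat.eq_zero_or_pos e with he0 | hepos
  · rw [he0, pow_zero, mul_one]
    exact htop
  by_cases hemp : IsEmpty (Copy F H)
  · have h0 : H.labelledCopyCount F = 0 := by
      rw [labelledCopyCount_eq_natCard]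
      exact Nat.card_of_isEmpty
    rw [h0]
    simp only [Nat.cast_zero]
    positivity
  rw [not_isEmpty_iff] at hemp
  obtain ⟨φ0⟩ := hemp
  obtain ⟨F', hF'le, ⟨E', hE', hor⟩, hpow⟩ :=
    pattern_reduce hn1 hlam1 (dens_of_hyp hq h) F φ0
  set e' := F'.edgeSet.ncard with he'
  have hE'card : E'.card = e' := by rw [he', ← hE', Set.ncard_coe_finset]
  have he'e : e' ≤ e := Set.ncard_le_ncard (SimpleGraph.edgeSet_mono hF'le) (Set.toFinite _)
  set b : ℝ := 8 * Mc * 6000000000 * q with hb
  have hb0 : 0 < b := by positivity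
  -- the main double count
  have hmain : (H.labelledCopyCount F' : ℝ) ≤ 2 * (n.factorial : ℝ) * b ^ e' := by
    rw [labelledCopyCount_eq_natCard]
    have : Fintype (Copy F' H) := Fintype.ofFinite _
    rw [Nat.card_eq_fintype_card]
    set N := Fintype.card (Sym2 (Fin n)) with hN
    set S : Copy F' H → Finset (Sym2 (Fin n)) := fun φ => E'.image (Sym2.map φ) with hSdef
    have hSH : ∀ φ : Copy F' H, ∀ x ∈ S φ, x ∈ H.edgeSet := by
      intro φ x hx
      rw [hSdef, Finset.mem_image] at hx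
      obtain ⟨x0, hx0, rfl⟩ := hx
      have h1 : x0 ∈ F'.edgeSet := by rw [← hE']; exact_mod_cast hx0
      induction x0 using Sym2.ind with
      | _ a b0 =>
        rw [Sym2.map_mk]
        exact φ.toHom.map_adj h1
    have hSor : ∀ φ : Copy F' H, Orientable (S φ) ∧ (S φ).card = E'.card :=
      fun φ => orientable_image φ φ.injective E' hor
    set cnt : Copy F' H → ℕ := fun φ =>
      (univ.filter (fun w : Sym2 (Fin n) → Fin (k + 1) => S φ ⊆ core (light H w))).card
      with hcnt
    have hprob : ∀ φ : Copy F' H, Mc ^ N ≤ 2 * (8 * Mc) ^ e' * (cnt φ : ℝ) := by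
      intro φ
      have h1 := prob_core hq h hlam r hr hcr k hk hM (S φ) (hSH φ) (hSor φ).1
      rw [(hSor φ).2, hE'card] at h1
      exact h1
    have hsum1 : (Fintype.card (Copy F' H) : ℝ) * Mc ^ N ≤
        2 * (8 * Mc) ^ e' * ((∑ φ : Copy F' H, cnt φ : ℕ) : ℝ) := by
      have h1 : ∑ _φ : Copy F' H, Mc ^ N ≤ ∑ φ : Copy F' H, 2 * (8 * Mc) ^ e' * (cnt φ : ℝ) :=
        Finset.sum_le_sum (fun φ _ => hprob φ)
      rw [Finset.sum_const, Finset.card_univ, nsmul_eq_mul, ← Finset.mul_sum] at h1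
      push_cast
      exact h1
    have hswap : (∑ φ : Copy F' H, cnt φ) =
        ∑ w : Sym2 (Fin n) → Fin (k + 1),
          (univ.filter (fun φ : Copy F' H => S φ ⊆ core (light H w))).card := by
      simp only [hcnt, Finset.card_filter]
      exact Finset.sum_comm
    have hper : ∀ w : Sym2 (Fin n) → Fin (k + 1),
        ((univ.filter (fun φ : Copy F' H => S φ ⊆ core (light H w))).card : ℝ) ≤
          (n.factorial : ℝ) * (6000000000 * q) ^ e' := by
      intro w
      have h1 := rl_count_le H F' E' hE' (core (light H w))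
      have h2 := rl_core_graph_le hq h (light H w) (fun x hx => by
        simp only [light, Finset.mem_filter] at hx
        exact hx.2.1) F'
      have h3 : (univ.filter (fun φ : Copy F' H => S φ ⊆ core (light H w))).card =
          Nat.card {φ : Copy F' H // E'.image (Sym2.map φ) ⊆ core (light H w)} := by
        rw [Nat.card_eq_fintype_card, Fintype.card_subtype]
      rw [h3]
      calc ((Nat.card {φ : Copy F' H // E'.image (Sym2.map φ) ⊆ core (light H w)} : ℕ) : ℝ)
          ≤ ((SimpleGraph.fromEdgeSet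
              (core (light H w) : Set (Sym2 (Fin n)))).labelledCopyCount F' : ℝ) := by
            exact_mod_cast h1
        _ ≤ (n.factorial : ℝ) * (6000000000 * q) ^ e' := h2
    have hsum2 : ((∑ φ : Copy F' H, cnt φ : ℕ) : ℝ) ≤
        Mc ^ N * ((n.factorial : ℝ) * (6000000000 * q) ^ e') := by
      rw [hswap]
      push_cast
      calc ∑ w : Sym2 (Fin n) → Fin (k + 1),
            ((univ.filter (fun φ : Copy F' H => S φ ⊆ core (light H w))).card : ℝ)
          ≤ ∑ _w : Sym2 (Fin n) → Fin (k + 1), (n.factorial : ℝ) * (6000000000 * q) ^ e' :=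
            Finset.sum_le_sum (fun w _ => hper w)
        _ = Mc ^ N * ((n.factorial : ℝ) * (6000000000 * q) ^ e') := by
            rw [Finset.sum_const, Finset.card_univ, nsmul_eq_mul, Fintype.card_fun,
              Fintype.card_fin, hMc, hN]
            push_cast
            ring
    have hMcN : 0 < Mc ^ N := pow_pos hMc0 N
    have h8 : (0 : ℝ) ≤ 2 * (8 * Mc) ^ e' := by positivity
    have hfin : (Fintype.card (Copy F' H) : ℝ) * Mc ^ N ≤
        (2 * (n.factorial : ℝ) * b ^ e') * Mc ^ N := by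
      calc (Fintype.card (Copy F' H) : ℝ) * Mc ^ N
          ≤ 2 * (8 * Mc) ^ e' * ((∑ φ : Copy F' H, cnt φ : ℕ) : ℝ) := hsum1
        _ ≤ 2 * (8 * Mc) ^ e' * (Mc ^ N * ((n.factorial : ℝ) * (6000000000 * q) ^ e')) :=
            mul_le_mul_of_nonneg_left hsum2 h8
        _ = (2 * (n.factorial : ℝ) * b ^ e') * Mc ^ N := by
            rw [hb]
            have : (8 * Mc * 6000000000 * q) ^ e' = (8 * Mc) ^ e' * (6000000000 * q) ^ e' := by
              rw [← mul_pow]
              congr 1
              ring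
            rw [this]
            ring
    exact le_of_mul_le_mul_right hfin hMcN
  -- from e' back to e
  have hbn : 1 ≤ b * n := by
    have : b * n = 8 * Mc * 6000000000 * lam := by rw [hb, hlamdef]; ring
    rw [this]
    nlinarith
  have hconv : b ^ e' ≤ b ^ e * lam ^ e := by
    have h1 : (1 : ℝ) ≤ (b * n) ^ (e - e') := one_le_pow₀ hbn
    rw [mul_pow] at h1
    have h2 : b ^ (e - e') * (n : ℝ) ^ (e - e') ≤ b ^ (e - e') * lam ^ e :=
      mul_le_mul_of_nonneg_left hpow (by positivity)
    have h3 : b ^ e = b ^ e' * b ^ (e - e') := by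
      rw [← pow_add]
      congr 1
      omega
    calc b ^ e' = b ^ e' * 1 := (mul_one _).symm
      _ ≤ b ^ e' * (b ^ (e - e') * lam ^ e) :=
          mul_le_mul_of_nonneg_left (le_trans h1 h2) (by positivity)
      _ = b ^ e * lam ^ e := by rw [h3]; ring
  have hmono : (H.labelledCopyCount F : ℝ) ≤ (H.labelledCopyCount F' : ℝ) := by
    exact_mod_cast rl_labelled_mono H hF'le
  have h2e : (2 : ℝ) ≤ 2 ^ e := by
    calc (2 : ℝ) = 2 ^ 1 := (pow_one 2).symm
      _ ≤ 2 ^ e := pow_le_pow_right₀ (by norm_num) hepos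
  have hfac0 : (0 : ℝ) ≤ (n.factorial : ℝ) := Nat.cast_nonneg _
  have hbl0 : (0 : ℝ) ≤ b ^ e * lam ^ e := by positivity
  calc (H.labelledCopyCount F : ℝ) ≤ (H.labelledCopyCount F' : ℝ) := hmono
    _ ≤ 2 * (n.factorial : ℝ) * b ^ e' := hmain
    _ ≤ 2 * (n.factorial : ℝ) * (b ^ e * lam ^ e) :=
        mul_le_mul_of_nonneg_left hconv (by positivity)
    _ ≤ 2 ^ e * (n.factorial : ℝ) * (b ^ e * lam ^ e) := by
        have := mul_nonneg hfac0 hbl0
        nlinarith
    _ = (n.factorial : ℝ) * (16 * Mc * 6000000000 * lam * q) ^ e := by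
        have : (16 * Mc * 6000000000 * lam * q) ^ e = 2 ^ e * (b ^ e * lam ^ e) := by
          rw [← mul_pow, ← mul_pow, hb]
          congr 1
          ring
        rw [this]
        ring

end Vale.Agent.Lib.P064.RG
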